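import Mathlib

/-!
# Stable finiteness of group algebras descends to positive characteristic
-/

namespace Vale.Agent.P194

open MonoidAlgebra

universe u v

theorem isJacobsonRing_int : IsJacobsonRing ℤ := by
  rw [isJacobsonRing_iff_prime_eq]
  intro P hP
  by_cases h : P = ⊥
  · subst h
    rw [eq_bot_iff]
    intro x hx
    have h3 := Ideal.mem_jacobson_bot.1 hx 3
    rw [Int.isUnit_iff] at h3
    rw [Submodule.mem_bot]
    omega
  · exact Ideal.jacobson_eq_self_of_isMaximal (H := hP.isMaximal h)

/-- A field that is finitely generated as a ring has prime characteristic. -/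
theorem exists_prime_charP (F : Type u) [Field F] [Algebra.FiniteType ℤ F] :
    ∃ p : ℕ, p.Prime ∧ CharP F p := by
  have := isJacobsonRing_int
  obtain ⟨p, hp⟩ := CharP.exists F
  rcases CharP.char_is_prime_or_zero F p with h | h
  · exact ⟨p, h, hp⟩
  · subst h
    exfalso
    have : CharZero F := CharP.charP_to_charZero F
    have hfin : Module.Finite ℤ F := finite_of_finite_type_of_isJacobsonRing ℤ F
    have hint : Algebra.IsIntegral ℤ F := Algebra.IsIntegral.of_finite ℤ F
    have hinj : Function.Injective (algebraMap ℤ F) := by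
      intro a b h; simpa using h
    exact Int.not_isField (isField_of_isIntegral_of_isField hinj (Field.toIsField F))

/-- Residue fields of finitely generated rings have prime characteristic. -/
theorem exists_prime_charP_quotient (A : Type u) [CommRing A] [hA : Algebra.FiniteType ℤ A]
    (I : Ideal A) [hI : I.IsMaximal] : ∃ p : ℕ, p.Prime ∧ CharP (A ⧸ I) p := by
  let _ : Field (A ⧸ I) := Ideal.Quotient.field I
  refine @exists_prime_charP (A ⧸ I) _ ?_
  rw [← RingHom.finiteType_algebraMap]
  have h := RingHom.FiniteType.comp_surjective (RingHom.finiteType_algebraMap.2 hA)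
    (Ideal.Quotient.mk_surjective (I := I))
  convert h using 1
  exact RingHom.ext_int _ _

/-- If `F[G]` is stably finite for all fields of prime characteristic, then for every field. -/
theorem isStablyFiniteRing_of_prime_char {G : Type v} [Group G]
    (h : ∀ (p : ℕ), p.Prime → ∀ (F : Type u) [Field F] [CharP F p],
      IsStablyFiniteRing (MonoidAlgebra F G))
    (K : Type u) [Field K] : IsStablyFiniteRing (MonoidAlgebra K G) := by
  classical
  refine ⟨fun n => ⟨fun {a b} hab => ?_⟩⟩
  by_contra hne
  obtain ⟨i, j, g, hc⟩ : ∃ i j g, ((b * a - 1) i j).coeff g ≠ 0 := by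
    by_contra hcon
    push Not at hcon
    refine hne (sub_eq_zero.1 ?_)
    ext i j g
    simpa using hcon i j g
  set c := ((b * a - 1) i j).coeff g with hcdef
  let S : Finset K := insert c⁻¹
    ((Finset.univ.biUnion fun i => Finset.univ.biUnion fun j =>
      (a i j).coeff.support.image (a i j).coeff) ∪
     (Finset.univ.biUnion fun i => Finset.univ.biUnion fun j =>
      (b i j).coeff.support.image (b i j).coeff))
  let A : Subalgebra ℤ K := Algebra.adjoin ℤ (S : Set K)
  have hfg : Algebra.FiniteType ℤ A := A.fg_iff_finiteType.1 (Subalgebra.fg_adjoin_finset S)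
  let ι : A →+* K := A.val.toRingHom
  have hι : Function.Injective ι := Subtype.val_injective
  let m := (mapRingHom G ι).mapMatrix (m := Fin n)
  have hm : Function.Injective m := by
    intro x y hxy
    ext i j g
    refine congrArg Subtype.val ?_
    apply hι
    have := congrArg (fun z : Matrix (Fin n) (Fin n) (MonoidAlgebra K G) => (z i j).coeff g) hxy
    simpa [m] using this
  have hlift : ∀ x : Matrix (Fin n) (Fin n) (MonoidAlgebra K G),
      (∀ i j g, (x i j).coeff g ∈ A) → ∃ y, m y = x := by
    intro x hx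
    refine ⟨fun i j => MonoidAlgebra.ofCoeff (Finsupp.onFinset (x i j).coeff.support
      (fun g => (⟨(x i j).coeff g, hx i j g⟩ : A)) fun g hg => ?_), ?_⟩
    · rw [Finsupp.mem_support_iff]
      intro h0
      apply hg
      exact Subtype.ext h0
    · ext i j g
      simp [m, ι]
      rfl
  have hmem : ∀ (x : Matrix (Fin n) (Fin n) (MonoidAlgebra K G)),
      (∀ i j, ∀ g ∈ (x i j).coeff.support, (x i j).coeff g ∈ S) →
      ∀ i j g, (x i j).coeff g ∈ A := by
    intro x hx i j g
    by_cases hg : g ∈ (x i j).coeff.support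
    · exact Algebra.subset_adjoin (hx i j g hg)
    · rw [Finsupp.notMem_support_iff.1 hg]
      exact A.zero_mem
  obtain ⟨a', ha'⟩ := hlift a (hmem a fun i j g hg => Finset.mem_insert_of_mem
    (Finset.mem_union_left _ (Finset.mem_biUnion.2 ⟨i, Finset.mem_univ _,
      Finset.mem_biUnion.2 ⟨j, Finset.mem_univ _, Finset.mem_image_of_mem _ hg⟩⟩)))
  obtain ⟨b', hb'⟩ := hlift b (hmem b fun i j g hg => Finset.mem_insert_of_mem
    (Finset.mem_union_right _ (Finset.mem_biUnion.2 ⟨i, Finset.mem_univ _,
      Finset.mem_biUnion.2 ⟨j, Finset.mem_univ _, Finset.mem_image_of_mem _ hg⟩⟩)))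
  have hab' : a' * b' = 1 := hm (by rw [map_mul, ha', hb', hab, map_one])
  let c' : A := ((b' * a' - 1) i j).coeff g
  have hc' : (c' : K) = c := by
    rw [hcdef, ← ha', ← hb', ← map_mul, ← map_one m, ← map_sub]
    simp [c', m, ι]
  let cinv : A := ⟨c⁻¹, Algebra.subset_adjoin (Finset.mem_insert_self _ _)⟩
  have hunit : c' * cinv = 1 := Subtype.ext (by
    show (c' : K) * c⁻¹ = 1
    rw [hc', mul_inv_cancel₀ hc])
  obtain ⟨I, hI⟩ := Ideal.exists_maximal A
  have := hI
  obtain ⟨p, hp, hcp⟩ := exists_prime_charP_quotient A I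
  let _ : Field (A ⧸ I) := Ideal.Quotient.field I
  have := h p hp (A ⧸ I)
  let φ := (mapRingHom G (Ideal.Quotient.mk I)).mapMatrix (m := Fin n)
  have h1 : φ b' * φ a' = 1 := mul_eq_one_symm (by rw [← map_mul, hab', map_one])
  have h2 : φ (b' * a' - 1) = 0 := by rw [map_sub, map_mul, h1, map_one, sub_self]
  have h3 : Ideal.Quotient.mk I c' = 0 := by
    have := congrArg (fun z : Matrix (Fin n) (Fin n) (MonoidAlgebra (A ⧸ I) G) => (z i j).coeff g) h2
    simpa [φ, c'] using this
  have h4 := congrArg (Ideal.Quotient.mk I) hunit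
  rw [map_mul, h3, zero_mul, map_one] at h4
  exact zero_ne_one h4

end Vale.Agent.P194
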