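import Mathlib

/-!
# Stable finiteness of group algebras: extensions with residually-p kernels

If `K` has characteristic `p`, `N` is normal in `G` and residually a finite `p`-group, and
`K[G ⧸ N]` is stably finite, then so is `K[G]`.
-/

namespace Vale.Agent.P194

open MonoidAlgebra

universe u v

/-- `N` is residually a finite `p`-group. -/
def ResiduallyP (p : ℕ) (N : Type*) [Group N] : Prop :=
  ∀ x : N, x ≠ 1 → ∃ M : Subgroup N, M.Normal ∧ (∃ k, M.index = p ^ k) ∧ x ∉ M

section separation

variable {p : ℕ} [Fact p.Prime] {N : Type v} [Group N]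

/-- A finite set of elements is separated from `1` by a single finite `p`-quotient. -/
theorem exists_separating_quotient (hN : ResiduallyP p N) (S : Finset N) :
    ∃ M : Subgroup N, M.Normal ∧ M.FiniteIndex ∧ (∀ x : N, ∃ k, x ^ p ^ k ∈ M) ∧
      ∀ x ∈ S, x ∈ M → x = 1 := by
  classical
  induction S using Finset.induction_on with
  | empty =>
    exact ⟨⊤, inferInstance, inferInstance, fun x => ⟨0, Subgroup.mem_top _⟩, by simp⟩
  | insert a S _ ih =>
    obtain ⟨M, hn, hf, hp, hS⟩ := ih
    by_cases ha : a = 1
    · exact ⟨M, hn, hf, hp, by simpa [ha] using hS⟩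
    obtain ⟨M', hn', ⟨k, hk⟩, haM'⟩ := hN a ha
    have hf' : M'.FiniteIndex := ⟨by rw [hk]; exact pow_ne_zero _ (Fact.out : p.Prime).ne_zero⟩
    refine ⟨M ⊓ M', inferInstance, inferInstance, fun x => ?_, ?_⟩
    · obtain ⟨l, hl⟩ := hp x
      refine ⟨l + k, ?_, ?_⟩
      · rw [pow_add, pow_mul]; exact M.pow_mem hl _
      · rw [pow_add, mul_comm, pow_mul]
        have h1 : x ^ p ^ k ∈ M' := by
          rw [← hk]; exact Subgroup.pow_index_mem M' x
        exact M'.pow_mem h1 _
    · intro x hx hxM
      rcases Finset.mem_insert.1 hx with rfl | hx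
      · exact absurd hxM.2 haM'
      · exact hS x hx hxM.1

end separation

section augmentation

variable (K : Type u) [Field K]

/-- The augmentation map of a group algebra. -/
noncomputable def eps (P : Type v) [Group P] : MonoidAlgebra K P →ₐ[K] K :=
  lift K K P 1

/-- The augmentation ideal, as a subspace. -/
noncomputable def aug (P : Type v) [Group P] : Submodule K (MonoidAlgebra K P) :=
  LinearMap.ker (eps K P).toLinearMap

variable {K} in
theorem mem_aug {P : Type v} [Group P] {x : MonoidAlgebra K P} : x ∈ aug K P ↔ eps K P x = 0 :=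
  Iff.rfl

theorem eps_single {P : Type v} [Group P] (g : P) (r : K) : eps K P (single g r) = r := by
  simp [eps]

/-- The augmentation ideal of a finite `p`-group in characteristic `p` is nilpotent. -/
theorem aug_nilpotent (p : ℕ) [Fact p.Prime] [CharP K p] :
    ∀ (c : ℕ) (P : Type v) [Group P] [Finite P], Nat.card P = c → IsPGroup p P →
      ∃ L : ℕ, aug K P ^ L = ⊥ := by
  intro c
  induction c using Nat.strong_induction_on with
  | _ c ih =>
    intro P _ _ hc hP
    rcases subsingleton_or_nontrivial P with hs | hn
    · refine ⟨1, ?_⟩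
      rw [pow_one, eq_bot_iff]
      intro x hx
      have hx1 : ∀ y : MonoidAlgebra K P, y = single (1 : P) (eps K P y) := by
        intro y
        induction y using MonoidAlgebra.induction_linear with
        | zero => simp
        | add y z hy hz => rw [map_add, single_add, ← hy, ← hz]
        | single g r =>
          obtain rfl : g = 1 := Subsingleton.elim _ _
          rw [eps_single]
      rw [Submodule.mem_bot, hx1 x, mem_aug.1 hx]
      simp
    · have hcenter := hP.center_nontrivial
      have hdvd : p ∣ Nat.card (Subgroup.center P) := by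
        obtain ⟨n, hn0, hn1⟩ := (IsPGroup.nontrivial_iff_card (hP.to_subgroup (Subgroup.center P))).1
          hcenter
        rw [hn1]
        exact dvd_pow_self p hn0.ne'
      obtain ⟨z, hz⟩ := exists_prime_orderOf_dvd_card' p hdvd
      have hzo : orderOf (z : P) = p := by rw [orderOf_submonoid]; exact hz
      let Z : Subgroup P := Subgroup.zpowers (z : P)
      have hZc : Z ≤ Subgroup.center P := Subgroup.zpowers_le.2 z.2
      have hZn : Z.Normal := ⟨fun n hn g => by
        rwa [Subgroup.mem_center_iff.1 (hZc hn) g, mul_inv_cancel_right]⟩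
      have hcard : Nat.card (P ⧸ Z) < c := by
        have hmul := Subgroup.card_eq_card_quotient_mul_card_subgroup Z
        have hZcard : Nat.card Z = p := by rw [Nat.card_zpowers, hzo]
        rw [hZcard, hc] at hmul
        have hpos : 0 < Nat.card (P ⧸ Z) := Nat.card_pos
        have h2 := (Fact.out : p.Prime).two_le
        calc Nat.card (P ⧸ Z) < Nat.card (P ⧸ Z) * p := lt_mul_of_one_lt_right hpos h2
          _ = c := hmul.symm
      obtain ⟨L, hL⟩ := ih _ hcard (P ⧸ Z) rfl (hP.to_quotient Z)
      let π : MonoidAlgebra K P →ₐ[K] MonoidAlgebra K (P ⧸ Z) :=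
        mapDomainAlgHom K K (QuotientGroup.mk' Z)
      let u : MonoidAlgebra K P := single (z : P) 1 - 1
      have hu : u ^ p = 0 := by
        have : CharP (MonoidAlgebra K P) p :=
          charP_of_injective_algebraMap (algebraMap K (MonoidAlgebra K P)).injective p
        rw [sub_pow_char_of_commute (p := p) (Commute.one_right _),
          one_pow, single_pow, one_pow, ← hzo, pow_orderOf_eq_one, one_def, sub_self]
      have hucomm : ∀ x : MonoidAlgebra K P, Commute x u := by
        intro x
        refine Commute.sub_right ?_ (Commute.one_right x)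
        induction x using MonoidAlgebra.induction_linear with
        | zero => exact Commute.zero_left _
        | add y w hy hw => exact hy.add_left hw
        | single g r =>
          show single g r * single (z : P) (1 : K) = single (z : P) 1 * single g r
          rw [single_mul_single, single_mul_single, Subgroup.mem_center_iff.1 z.2 g, one_mul,
            mul_one]
      let I : Submodule K (MonoidAlgebra K P) := LinearMap.range (LinearMap.mulLeft K u)
      have hI : ∀ k, I ^ k ≤ LinearMap.range (LinearMap.mulLeft K (u ^ k)) := by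
        intro k
        induction k with
        | zero =>
          intro x _
          exact ⟨x, by simp⟩
        | succ k ihk =>
          rw [pow_succ]
          refine Submodule.mul_le.2 ?_
          intro x hx y hy
          obtain ⟨x', rfl⟩ := ihk hx
          obtain ⟨y', rfl⟩ := hy
          refine ⟨x' * y', ?_⟩
          simp only [LinearMap.mulLeft_apply]
          rw [pow_succ]
          simp only [← mul_assoc]
          rw [mul_assoc (u ^ k) x' u, (hucomm x').eq, ← mul_assoc]
      have hker : LinearMap.ker π.toLinearMap ≤ I := by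
        let s : P → P := fun g => (QuotientGroup.mk' Z g).out
        have hdiff : ∀ y : MonoidAlgebra K P, y - mapDomain s y ∈ I := by
          intro y
          induction y using MonoidAlgebra.induction_linear with
          | zero => simp
          | add a b ha hb => rw [mapDomain_add, add_sub_add_comm]; exact I.add_mem ha hb
          | single g r =>
            rw [mapDomain_single]
            have hmem : (s g)⁻¹ * g ∈ Z := QuotientGroup.eq.1 (Quotient.out_eq' _)
            have hmem' : g * (s g)⁻¹ ∈ Z := hZn.mem_comm hmem
            have hfin : IsOfFinOrder (z : P) := isOfFinOrder_of_finite _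
            obtain ⟨k, hk⟩ := hfin.mem_powers_iff_mem_zpowers.2 hmem'
            refine ⟨(∑ i ∈ Finset.range k, single (z : P) (1 : K) ^ i) * single (s g) r, ?_⟩
            have hk' : (z : P) ^ k = g * (s g)⁻¹ := hk
            rw [LinearMap.mulLeft_apply, ← mul_assoc,
              show u = single (z : P) (1 : K) - 1 from rfl, mul_geom_sum, sub_mul, one_mul,
              single_pow, one_pow, single_mul_single, one_mul, hk', inv_mul_cancel_right]
        intro x hx
        have hzero : mapDomain s x = 0 := by
          have : s = (Quotient.out : P ⧸ Z → P) ∘ (QuotientGroup.mk' Z) := rfl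
          apply MonoidAlgebra.coeff_injective
          rw [coeff_mapDomain, this, Finsupp.mapDomain_comp]
          have hx' : Finsupp.mapDomain (QuotientGroup.mk' Z) x.coeff = 0 := by
            have := congrArg MonoidAlgebra.coeff (LinearMap.mem_ker.1 hx)
            simpa [π] using this
          rw [hx']
          simp
        simpa [hzero] using hdiff x
      have hmap : Submodule.map π.toLinearMap (aug K P) ≤ aug K (P ⧸ Z) := by
        rintro _ ⟨x, hx, rfl⟩
        have key : (eps K (P ⧸ Z)).comp π = eps K P := by
          ext g; simp [π, eps]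
        show eps K (P ⧸ Z) (π x) = 0
        rw [← AlgHom.comp_apply, key]
        exact hx
      have hAL : aug K P ^ L ≤ I := by
        refine le_trans ?_ hker
        intro x hx
        have h1 : π x ∈ Submodule.map π.toLinearMap (aug K P ^ L) := ⟨x, hx, rfl⟩
        rw [Submodule.map_pow] at h1
        have h2 := pow_le_pow_left' hmap L h1
        rw [hL] at h2
        exact h2
      refine ⟨L * p, ?_⟩
      rw [eq_bot_iff, pow_mul]
      refine le_trans (pow_le_pow_left' hAL p) (le_trans (hI p) ?_)
      rw [hu]
      simp

end augmentation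

section induced

variable {K : Type u} [Field K] {G : Type v} [Group G] {N : Subgroup G} [N.Normal]
  {P : Type v} [Group P]

/-- The `N`-valued cocycle of a transversal. -/
noncomputable def sec (g : G) (q : G ⧸ N) : N :=
  ⟨((QuotientGroup.mk' N g * q).out)⁻¹ * (g * q.out), by
    apply QuotientGroup.eq.1
    simp⟩

theorem sec_mul (g h : G) (q : G ⧸ N) :
    sec (g * h) q = sec g (QuotientGroup.mk' N h * q) * sec h q := by
  apply Subtype.ext
  simp [sec, mul_assoc]

theorem sec_one (q : G ⧸ N) : sec (1 : G) q = 1 := by
  apply Subtype.ext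
  simp [sec]

variable (K) in
/-- The representation of `G` induced from a representation of `N` through `ψ`. -/
noncomputable def indFun (ψ : N →* P) :
    G →* Module.End K ((G ⧸ N) →₀ MonoidAlgebra K P) where
  toFun g := Finsupp.lsum K fun q =>
    (Finsupp.lsingle (QuotientGroup.mk' N g * q)).comp
      (LinearMap.mulLeft K (single (ψ (sec g q)) (1 : K)))
  map_one' := by
    ext q r
    simp [sec_one, ← one_def]
  map_mul' g h := by
    ext q r
    simp [sec_mul, mul_assoc, single_mul_single]

variable (K) in
/-- The induced representation of the group algebra. -/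
noncomputable def ind (ψ : N →* P) :
    MonoidAlgebra K G →ₐ[K] Module.End K ((G ⧸ N) →₀ MonoidAlgebra K P) :=
  lift K _ G (indFun K ψ)

open Classical in
/-- The matrix entries of the induced representation. -/
noncomputable def indEntry (ψ : N →* P) (x : MonoidAlgebra K G) (q' q : G ⧸ N) :
    MonoidAlgebra K P :=
  x.coeff.sum fun g r => if QuotientGroup.mk' N g * q = q' then single (ψ (sec g q)) r else 0

open Classical in
theorem ind_single_apply (ψ : N →* P) (x : MonoidAlgebra K G) (q' q : G ⧸ N)
    (r : MonoidAlgebra K P) :
    ind K ψ x (Finsupp.single q r) q' = indEntry ψ x q' q * r := by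
  rw [ind, lift_apply, indEntry, Finsupp.sum, Finsupp.sum, Finset.sum_mul,
    LinearMap.sum_apply, Finsupp.finsetSum_apply]
  refine Finset.sum_congr rfl fun g _ => ?_
  simp only [LinearMap.smul_apply, Finsupp.smul_apply, indFun, MonoidHom.coe_mk, OneHom.coe_mk,
    Finsupp.lsum_single, LinearMap.comp_apply, Finsupp.lsingle_apply, LinearMap.mulLeft_apply]
  rw [Finsupp.single_apply, ite_mul, zero_mul, smul_ite, smul_zero]
  congr 1
  rw [← smul_mul_assoc, smul_single, smul_eq_mul, mul_one]

theorem indEntry_mem_aug (ψ : N →* P) (x : MonoidAlgebra K G)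
    (hx : mapDomain (QuotientGroup.mk' N) x = 0) (q' q : G ⧸ N) :
    indEntry ψ x q' q ∈ aug K P := by
  classical
  rw [mem_aug, indEntry, map_finsuppSum]
  have h := congrArg (fun y : MonoidAlgebra K (G ⧸ N) => y.coeff (q' * q⁻¹)) hx
  simp only [coeff_mapDomain, Finsupp.mapDomain, Finsupp.sum_apply, coeff_zero,
    Finsupp.coe_zero, Pi.zero_apply, Finsupp.single_apply] at h
  rw [← h]
  refine Finsupp.sum_congr fun g _ => ?_
  simp only [apply_ite (eps K P), eps_single, map_zero, eq_mul_inv_iff_mul_eq]

/-- An element of the kernel raises the augmentation filtration by one. -/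
theorem ind_raises (ψ : N →* P) (x : MonoidAlgebra K G)
    (hx : mapDomain (QuotientGroup.mk' N) x = 0) (k : ℕ)
    (v : (G ⧸ N) →₀ MonoidAlgebra K P) (hv : ∀ q, v q ∈ aug K P ^ k) (q' : G ⧸ N) :
    ind K ψ x v q' ∈ aug K P ^ (k + 1) := by
  rw [← Finsupp.sum_single v, Finsupp.sum, map_sum, Finsupp.finsetSum_apply, pow_succ']
  refine Submodule.sum_mem _ fun q _ => ?_
  rw [ind_single_apply]
  exact Submodule.mul_mem_mul (indEntry_mem_aug ψ x hx q' q) (hv q)

end induced

section main

variable {K : Type u} [Field K] {G : Type v} [Group G]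

/-- An idempotent matrix over `K[G]` vanishing modulo a residually-`p` normal subgroup is zero. -/
theorem idempotent_eq_zero (p : ℕ) [Fact p.Prime] [CharP K p] (N : Subgroup G) [N.Normal]
    (hN : ResiduallyP p N) {ι : Type*} [Fintype ι] [DecidableEq ι]
    (e : Matrix ι ι (MonoidAlgebra K G)) (he : e * e = e)
    (h0 : ∀ i j, mapDomain (QuotientGroup.mk' N) (e i j) = 0) : e = 0 := by
  classical
  ext i j g₀
  by_contra hne
  let S : Finset N := (e i j).coeff.support.image fun g => (sec g₀ 1)⁻¹ * sec g 1
  obtain ⟨M, hn, hf, hp, hS⟩ := exists_separating_quotient hN S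
  let ψ : N →* N ⧸ M := QuotientGroup.mk' M
  have hP : IsPGroup p (N ⧸ M) := by
    intro x
    induction x using QuotientGroup.induction_on with
    | H a =>
      obtain ⟨k, hk⟩ := hp a
      exact ⟨k, by rw [← QuotientGroup.mk_pow]; exact (QuotientGroup.eq_one_iff _).2 hk⟩
  obtain ⟨L, hL⟩ := aug_nilpotent K p _ (N ⧸ M) rfl hP
  have hpow : ∀ k, e ^ (k + 1) = e := fun k => by
    induction k with
    | zero => rw [pow_one]
    | succ k ih => rw [pow_succ, ih, he]
  have hraise : ∀ k r i j (v : (G ⧸ N) →₀ MonoidAlgebra K (N ⧸ M)),
      (∀ q, v q ∈ aug K (N ⧸ M) ^ r) → ∀ q,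
        ind K ψ ((e ^ (k + 1)) i j) v q ∈ aug K (N ⧸ M) ^ (r + (k + 1)) := by
    intro k
    induction k with
    | zero =>
      intro r i j v hv q
      rw [pow_one]
      exact ind_raises ψ _ (h0 i j) r v hv q
    | succ k ih =>
      intro r i j v hv q
      rw [pow_succ, Matrix.mul_apply, map_sum, LinearMap.sum_apply, Finsupp.finsetSum_apply]
      refine Submodule.sum_mem _ fun l _ => ?_
      rw [map_mul, Module.End.mul_apply]
      have := ih (r + 1) i l _ (ind_raises ψ _ (h0 l j) r v hv) q
      rwa [show r + (k + 1 + 1) = r + 1 + (k + 1) by omega]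
  let q₀ : G ⧸ N := QuotientGroup.mk' N g₀ * 1
  have hone : ∀ q, (Finsupp.single (1 : G ⧸ N) (1 : MonoidAlgebra K (N ⧸ M))) q
      ∈ aug K (N ⧸ M) ^ 0 := by
    intro q
    rw [pow_zero, Finsupp.single_apply]
    split_ifs
    · exact Submodule.one_le.1 le_rfl
    · exact zero_mem _
  have hvan := hraise L 0 i j _ hone q₀
  rw [hpow, zero_add, pow_succ, hL, Submodule.bot_mul, Submodule.mem_bot, ind_single_apply,
    mul_one] at hvan
  have hc := congrArg (fun y : MonoidAlgebra K (N ⧸ M) => y.coeff (ψ (sec g₀ 1))) hvan
  simp only [indEntry, Finsupp.sum, coeff_sum, Finsupp.finsetSum_apply, coeff_zero,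
    Finsupp.coe_zero, Pi.zero_apply] at hc
  refine hne ?_
  rw [Finset.sum_eq_single g₀] at hc
  · simpa [q₀] using hc
  · intro g hg hgne
    split_ifs with hq
    · rw [coeff_single, Finsupp.single_apply, if_neg]
      intro heq
      have h1 : (sec g₀ 1)⁻¹ * sec g 1 ∈ M := QuotientGroup.eq.1 heq.symm
      have h2 := hS _ (Finset.mem_image_of_mem _ hg) h1
      rw [inv_mul_eq_one] at h2
      apply hgne
      have h3 := congrArg Subtype.val h2
      simp only [sec, mul_one] at h3 hq
      have hq' : QuotientGroup.mk' N g = QuotientGroup.mk' N g₀ := by simpa [q₀] using hq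
      rw [hq'] at h3
      exact (mul_right_cancel (mul_left_cancel h3)).symm
    · simp
  · intro h
    simp [Finsupp.notMem_support_iff.1 h]

/-- **Extension theorem.** -/
theorem isStablyFiniteRing_of_residuallyP (p : ℕ) [Fact p.Prime] [CharP K p]
    (N : Subgroup G) [N.Normal] (hN : ResiduallyP p N)
    [IsStablyFiniteRing (MonoidAlgebra K (G ⧸ N))] :
    IsStablyFiniteRing (MonoidAlgebra K G) := by
  refine ⟨fun n => ⟨fun {a b} hab => ?_⟩⟩
  let f := (mapDomainRingHom K (QuotientGroup.mk' N)).mapMatrix (m := Fin n)
  have hf : f b * f a = 1 := mul_eq_one_symm (by rw [← map_mul, hab, map_one])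
  have he : (1 - b * a) * (1 - b * a) = 1 - b * a := by
    have : b * a * (b * a) = b * a := by
      calc b * a * (b * a) = b * (a * b) * a := by simp only [mul_assoc]
        _ = b * a := by rw [hab, mul_one]
    noncomm_ring [this]
  have h0 : f (1 - b * a) = 0 := by rw [map_sub, map_one, map_mul, hf, sub_self]
  have := idempotent_eq_zero p N hN (1 - b * a) he fun i j => by
    have h1 := congrFun (congrFun h0 i) j
    simpa [f] using h1
  exact (sub_eq_zero.1 this).symm

end main

end Vale.Agent.P194
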