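import Mathlib
import Vale.Agent.P194.Residual

/-!
# Free groups of any rank are residually finite `p`-groups for every prime `p`

Ping-pong with parabolic matrices congruent to `1` modulo `p`.
-/

namespace Vale.Agent.P194

open Matrix

universe u

/-- In any ring, `x ≡ 1 (mod p)` gives `x ^ p ^ j ≡ 1 (mod p ^ (j + 1))`. -/
theorem pow_prime_pow_sub_one {R : Type*} [Ring R] (p : ℕ) (x : R) (hx : ∃ Y, x - 1 = p • Y) :
    ∀ j : ℕ, ∃ Y, x ^ p ^ j - 1 = p ^ (j + 1) • Y := by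
  intro j
  induction j with
  | zero => simpa using hx
  | succ j ih =>
    obtain ⟨Y, hY⟩ := ih
    generalize hz : x ^ p ^ j = z at hY
    let Z := ∑ l ∈ Finset.range p, Y * ∑ i ∈ Finset.range l, z ^ i
    have hl : ∀ l : ℕ, z ^ l = 1 + p ^ (j + 1) • (Y * ∑ i ∈ Finset.range l, z ^ i) := by
      intro l
      rw [← smul_mul_assoc, ← hY, mul_geom_sum, add_sub_cancel]
    refine ⟨Y * (1 + p ^ j • Z), ?_⟩
    have hS : ∑ l ∈ Finset.range p, z ^ l = p • (1 + p ^ j • Z) := by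
      rw [Finset.sum_congr rfl fun l _ => hl l, Finset.sum_add_distrib, Finset.sum_const,
        Finset.card_range, ← Finset.smul_sum, smul_add, smul_smul, ← pow_succ']
    rw [pow_succ p j, pow_mul, hz, ← mul_geom_sum z p, hY, hS, smul_mul_assoc, mul_smul_comm,
      smul_smul, ← pow_succ]

section pingpong

/-- The parabolic matrix fixing `(i, 1)`, with parameter `m`. -/
def par (i m : ℤ) : Matrix (Fin 2) (Fin 2) ℤ := !![1 - i * m, i * i * m; -m, 1 + i * m]

theorem par_mul (i m m' : ℤ) : par i m * par i m' = par i (m + m') := by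
  simp only [par, Matrix.mul_fin_two]
  ext a b
  fin_cases a <;> fin_cases b <;> simp <;> ring

theorem par_zero (i : ℤ) : par i 0 = 1 := by
  simp [par, Matrix.one_fin_two]

/-- `par` as a unit. -/
def parUnit (i m : ℤ) : (Matrix (Fin 2) (Fin 2) ℤ)ˣ where
  val := par i m
  inv := par i (-m)
  val_inv := by rw [par_mul, add_neg_cancel, par_zero]
  inv_val := by rw [par_mul, neg_add_cancel, par_zero]

/-- The sign of a letter. -/
def sgn : Bool → ℤ
  | true => 1
  | false => -1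

variable {α : Type u}

/-- The orbit of `(1, 0)` along a word. -/
def act (f : α → ℤ) (m : ℤ) : List (α × Bool) → ℤ × ℤ
  | [] => (1, 0)
  | a :: L =>
    let v := act f m L
    let t := sgn a.2 * m * (f a.1 * v.2 - v.1)
    (v.1 + f a.1 * t, v.2 + t)

/-- The cone attached to a letter. -/
def InCone (i : ℤ) (ε : ℤ) (v : ℤ × ℤ) : Prop :=
  (0 < i * v.2 - v.1 ∧ 3 * (i * v.2 - v.1) < ε * v.2) ∨
    (i * v.2 - v.1 < 0 ∧ ε * v.2 < 3 * (i * v.2 - v.1))

/-- Far from the point `i`. -/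
def Far (i : ℤ) (v : ℤ × ℤ) : Prop :=
  (0 < i * v.2 - v.1 ∧ 2 * |v.2| ≤ 3 * (i * v.2 - v.1)) ∨
    (i * v.2 - v.1 < 0 ∧ 2 * |v.2| ≤ -3 * (i * v.2 - v.1))

theorem far_of_inCone {i j : ℤ} (hij : i ≠ j) (ε : Bool) {v : ℤ × ℤ}
    (h : InCone j (sgn ε) v) : Far i v := by
  obtain ⟨x, y⟩ := v
  rcases lt_or_gt_of_ne hij with hd | hd <;>
    rcases h with ⟨h1, h2⟩ | ⟨h1, h2⟩ <;>
      cases ε <;> simp only [sgn, one_mul, neg_mul] at h2 <;>
        simp only [Far] <;> simp only at h1 h2 <;>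
        first
        | (left; rw [abs_of_nonneg (by linarith)]; constructor <;> nlinarith)
        | (left; rw [abs_of_nonpos (by linarith)]; constructor <;> nlinarith)
        | (right; rw [abs_of_nonneg (by linarith)]; constructor <;> nlinarith)
        | (right; rw [abs_of_nonpos (by linarith)]; constructor <;> nlinarith)

theorem inCone_step {i m : ℤ} (hm : 5 ≤ m) (ε : Bool) {v : ℤ × ℤ}
    (h : Far i v ∨ InCone i (sgn ε) v) :
    InCone i (sgn ε)
      (v.1 + i * (sgn ε * m * (i * v.2 - v.1)), v.2 + sgn ε * m * (i * v.2 - v.1)) := by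
  obtain ⟨x, y⟩ := v
  have key : i * (y + sgn ε * m * (i * y - x)) - (x + i * (sgn ε * m * (i * y - x))) = i * y - x := by
    ring
  simp only [InCone, key]
  have hy := le_abs_self y
  have hy' := neg_abs_le y
  rcases h with (⟨h1, h2⟩ | ⟨h1, h2⟩) | (⟨h1, h2⟩ | ⟨h1, h2⟩) <;>
    cases ε <;> simp only [sgn] at * <;>
      first
      | (left; exact ⟨h1, by nlinarith⟩)
      | (right; exact ⟨h1, by nlinarith⟩)

theorem inCone_act (f : α → ℤ) {m : ℤ} (hm : 5 ≤ m) :
    ∀ (L : List (α × Bool)) (a : α × Bool), FreeGroup.IsReduced (a :: L) →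
      (∀ x ∈ a :: L, ∀ y ∈ a :: L, f x.1 = f y.1 → x.1 = y.1) →
      InCone (f a.1) (sgn a.2) (act f m (a :: L)) := by
  intro L
  induction L with
  | nil =>
    intro a _ _
    exact inCone_step hm a.2 (Or.inl (Or.inr (by simp [act])))
  | cons b L ih =>
    intro a hred hinj
    rw [FreeGroup.isReduced_cons_cons] at hred
    have hb := ih b hred.2 fun x hx y hy =>
      hinj x (List.mem_cons_of_mem _ hx) y (List.mem_cons_of_mem _ hy)
    refine inCone_step hm a.2 ?_
    by_cases hab : a.1 = b.1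
    · right
      rw [hab, hred.1 hab]
      exact hb
    · left
      exact far_of_inCone (fun h => hab (hinj a List.mem_cons_self b
        (List.mem_cons_of_mem _ List.mem_cons_self) h)) b.2 hb

/-- The ping-pong representation. -/
noncomputable def rep (f : α → ℤ) (m : ℤ) : FreeGroup α →* (Matrix (Fin 2) (Fin 2) ℤ)ˣ :=
  FreeGroup.lift fun a => parUnit (f a) m

theorem rep_mk_cons (f : α → ℤ) (m : ℤ) (a : α × Bool) (L : List (α × Bool)) :
    ((rep f m (FreeGroup.mk (a :: L)) : (Matrix (Fin 2) (Fin 2) ℤ)ˣ) : Matrix (Fin 2) (Fin 2) ℤ) =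
      par (f a.1) (sgn a.2 * m) * (rep f m (FreeGroup.mk L) : (Matrix (Fin 2) (Fin 2) ℤ)ˣ) := by
  obtain ⟨x, _ | _⟩ := a <;> simp [rep, FreeGroup.lift_mk, sgn, parUnit]

theorem rep_mk_apply (f : α → ℤ) (m : ℤ) : ∀ L : List (α × Bool),
    ((rep f m (FreeGroup.mk L) : (Matrix (Fin 2) (Fin 2) ℤ)ˣ) : Matrix (Fin 2) (Fin 2) ℤ) *ᵥ
      ![1, 0] = ![(act f m L).1, (act f m L).2] := by
  intro L
  induction L with
  | nil =>
    rw [show FreeGroup.mk ([] : List (α × Bool)) = 1 from rfl, map_one, Units.val_one,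
      Matrix.one_mulVec]
    simp [act]
  | cons a L ih =>
    rw [rep_mk_cons, ← Matrix.mulVec_mulVec, ih]
    ext k
    fin_cases k <;> simp [act, par, Matrix.mulVec, dotProduct, Fin.sum_univ_two] <;> ring

end pingpong

/-- Free groups of any rank are residually finite `p`-groups. -/
theorem residuallyP_freeGroup (p : ℕ) [hp : Fact p.Prime] (α : Type u) :
    ResiduallyP p (FreeGroup α) := by
  classical
  intro w hw
  let f : α → ℤ := fun a => (((w.toWord.map Prod.fst).idxOf a : ℕ) : ℤ)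
  let m : ℤ := 5 * (p : ℤ)
  have hm : 5 ≤ m := by
    have := hp.out.two_le
    omega
  -- the matrix of `w` is not `1`
  have hne : ((rep f m w : (Matrix (Fin 2) (Fin 2) ℤ)ˣ) : Matrix (Fin 2) (Fin 2) ℤ) ≠ 1 := by
    intro h
    rcases hL : w.toWord with _ | ⟨a, L⟩
    · exact hw (FreeGroup.toWord_eq_nil_iff.1 hL)
    have hred : FreeGroup.IsReduced (a :: L) := hL ▸ FreeGroup.isReduced_toWord
    have hinj : ∀ x ∈ a :: L, ∀ y ∈ a :: L, f x.1 = f y.1 → x.1 = y.1 := by
      intro x hx y hy hxy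
      rw [← hL] at hx hy
      exact (List.idxOf_inj (List.mem_map_of_mem hx)).1 (Int.ofNat_inj.1 hxy)
    have hc := inCone_act f hm L a hred hinj
    have happ := rep_mk_apply f m (a :: L)
    rw [← hL, FreeGroup.mk_toWord, h, Matrix.one_mulVec, hL] at happ
    have h1 := congrFun happ 1
    simp only [Matrix.cons_val_one, Matrix.cons_val_fin_one] at h1
    rcases hc with ⟨h2, h3⟩ | ⟨h2, h3⟩ <;> rw [← h1] at h2 h3 <;> simp at h2 h3 <;> linarith
  obtain ⟨i, j, hij⟩ : ∃ i j,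
      ((rep f m w : (Matrix (Fin 2) (Fin 2) ℤ)ˣ) : Matrix (Fin 2) (Fin 2) ℤ) i j
        - (1 : Matrix (Fin 2) (Fin 2) ℤ) i j ≠ 0 := by
    by_contra hcon
    push Not at hcon
    exact hne (Matrix.ext fun i j => sub_eq_zero.1 (hcon i j))
  generalize hd : ((rep f m w : (Matrix (Fin 2) (Fin 2) ℤ)ˣ) : Matrix (Fin 2) (Fin 2) ℤ) i j
    - (1 : Matrix (Fin 2) (Fin 2) ℤ) i j = d at hij
  let k : ℕ := d.natAbs
  have : NeZero (p ^ k) := ⟨pow_ne_zero _ hp.out.ne_zero⟩
  let red := (Int.castRingHom (ZMod (p ^ k))).mapMatrix (m := Fin 2)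
  let ψ : FreeGroup α →* (Matrix (Fin 2) (Fin 2) (ZMod (p ^ k)))ˣ :=
    (Units.map red.toMonoidHom).comp (rep f m)
  refine ⟨ψ.ker, inferInstance, ?_, ?_⟩
  · have hdiv : ∀ v : FreeGroup α, ∃ Y : Matrix (Fin 2) (Fin 2) ℤ,
        ((rep f m v : (Matrix (Fin 2) (Fin 2) ℤ)ˣ) : Matrix (Fin 2) (Fin 2) ℤ) - 1 = p • Y := by
      let red1 := (Int.castRingHom (ZMod p)).mapMatrix (m := Fin 2)
      have h1 : (Units.map red1.toMonoidHom).comp (rep f m) = 1 := by
        refine FreeGroup.ext_hom _ _ fun a => Units.ext ?_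
        have hm0 : ((m : ℤ) : ZMod p) = 0 := by simp [m]
        simp only [MonoidHom.comp_apply, rep, FreeGroup.lift_apply_of, Units.coe_map,
          MonoidHom.one_apply, Units.val_one]
        ext r s
        fin_cases r <;> fin_cases s <;> simp [red1, parUnit, par, hm0]
      intro v
      refine ⟨Matrix.of fun r s => (((rep f m v : (Matrix (Fin 2) (Fin 2) ℤ)ˣ) :
        Matrix (Fin 2) (Fin 2) ℤ) - 1) r s / (p : ℤ), ?_⟩
      ext r s
      have h2 := congrArg (fun u : (Matrix (Fin 2) (Fin 2) (ZMod p))ˣ =>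
        (u : Matrix (Fin 2) (Fin 2) (ZMod p)) r s) (DFunLike.congr_fun h1 v)
      have hdvd : (p : ℤ) ∣ (((rep f m v : (Matrix (Fin 2) (Fin 2) ℤ)ˣ) :
          Matrix (Fin 2) (Fin 2) ℤ) - 1) r s := by
        rw [← ZMod.intCast_zmod_eq_zero_iff_dvd, Matrix.sub_apply, Int.cast_sub, sub_eq_zero]
        have h2' : ((((rep f m v : (Matrix (Fin 2) (Fin 2) ℤ)ˣ) : Matrix (Fin 2) (Fin 2) ℤ) r s :
            ℤ) : ZMod p) = (1 : Matrix (Fin 2) (Fin 2) (ZMod p)) r s := by simpa [red1] using h2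
        rw [h2']
        rw [Matrix.one_apply, Matrix.one_apply]; split_ifs <;> simp
      rw [Matrix.smul_apply, Matrix.of_apply, nsmul_eq_mul]
      exact (Int.mul_ediv_cancel' hdvd).symm
    have hP : IsPGroup p ψ.range := by
      rintro ⟨_, v, rfl⟩
      refine ⟨k, Subtype.ext (Units.ext ?_)⟩
      obtain ⟨Y, hY⟩ := pow_prime_pow_sub_one p _ (hdiv v) k
      have h2 := congrArg red hY
      rw [map_sub, map_one, map_pow, map_nsmul] at h2
      simp only [SubmonoidClass.coe_pow, OneMemClass.coe_one, Units.val_pow_eq_pow_val,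
        Units.val_one]
      show red ((rep f m v : (Matrix (Fin 2) (Fin 2) ℤ)ˣ) : Matrix (Fin 2) (Fin 2) ℤ) ^ p ^ k = 1
      rw [sub_eq_iff_eq_add.1 h2]
      have h0 : ∀ Z : Matrix (Fin 2) (Fin 2) (ZMod (p ^ k)), p ^ (k + 1) • Z = 0 := by
        intro Z
        ext r s
        rw [Matrix.smul_apply, nsmul_eq_mul, pow_succ, Nat.cast_mul, ZMod.natCast_self]
        simp
      rw [h0, zero_add]
    obtain ⟨n, hn⟩ := IsPGroup.iff_card.1 hP
    exact ⟨n, by rw [Subgroup.index_ker]; exact hn⟩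
  · intro hmem
    have h2 := congrArg (fun u : (Matrix (Fin 2) (Fin 2) (ZMod (p ^ k)))ˣ =>
      (u : Matrix (Fin 2) (Fin 2) (ZMod (p ^ k))) i j) (MonoidHom.mem_ker.1 hmem)
    have h3 : ((d : ℤ) : ZMod (p ^ k)) = 0 := by
      rw [← hd, Int.cast_sub, sub_eq_zero]
      have h2' : ((((rep f m w : (Matrix (Fin 2) (Fin 2) ℤ)ˣ) : Matrix (Fin 2) (Fin 2) ℤ) i j :
          ℤ) : ZMod (p ^ k)) = (1 : Matrix (Fin 2) (Fin 2) (ZMod (p ^ k))) i j := by
        simpa [ψ, red] using h2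
      rw [h2']
      rw [Matrix.one_apply, Matrix.one_apply]; split_ifs <;> simp
    rw [ZMod.intCast_zmod_eq_zero_iff_dvd] at h3
    have hle := Nat.le_of_dvd (Int.natAbs_pos.2 hij) (Int.natCast_dvd.1 h3)
    exact absurd hle (not_le.2 (Nat.lt_pow_self hp.out.one_lt))

end Vale.Agent.P194
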