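import Mathlib

/-!
# Group algebras of sofic groups are stably finite

A rank argument in the style of Elek and Szabó (the result is theirs).
-/

namespace Vale.Agent.P194

open MonoidAlgebra

universe u v

/-- Sofic groups: arbitrarily good approximate actions on finite sets. -/
def IsSofic (Q : Type v) [Group Q] : Prop :=
  ∀ (F : Finset Q) (ε : ℝ), 0 < ε → ∃ n : ℕ, 0 < n ∧ ∃ σ : Q → Equiv.Perm (Fin n),
    (∀ g ∈ F, ∀ h ∈ F,
      ((Finset.univ.filter fun v : Fin n => σ g (σ h v) ≠ σ (g * h) v).card : ℝ) ≤ ε * n) ∧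
    (∀ g ∈ F, g ≠ 1 →
      ((Finset.univ.filter fun v : Fin n => σ g v = v).card : ℝ) ≤ ε * n)

section

variable {K : Type u} [Field K] {Q : Type v} [Group Q] {n : ℕ}

/-- The approximate representation. -/
noncomputable def approx (σ : Q → Equiv.Perm (Fin n)) (x : MonoidAlgebra K Q) :
    Matrix (Fin n) (Fin n) K :=
  fun w v => x.coeff.sum fun g r => if σ g v = w then r else 0

theorem approx_add (σ : Q → Equiv.Perm (Fin n)) (x y : MonoidAlgebra K Q) :
    approx σ (x + y) = approx σ x + approx σ y := by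
  ext w v
  simp only [approx, coeff_add, Matrix.add_apply]
  refine Finsupp.sum_add_index' (fun g => by simp) fun g r s => ?_
  split_ifs <;> simp

/-- `approx` as an additive map. -/
noncomputable def approxHom (σ : Q → Equiv.Perm (Fin n)) :
    MonoidAlgebra K Q →+ Matrix (Fin n) (Fin n) K where
  toFun := approx σ
  map_zero' := by ext; simp [approx]
  map_add' := approx_add σ

theorem approxHom_single (σ : Q → Equiv.Perm (Fin n)) (g : Q) (r : K) (w v : Fin n) :
    approxHom σ (single g r) w v = if σ g v = w then r else 0 := by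
  simp [approxHom, approx]

/-- At a good point the approximate representation is multiplicative. -/
theorem approxHom_mul_col (σ : Q → Equiv.Perm (Fin n)) (x y : MonoidAlgebra K Q) (v : Fin n)
    (h : ∀ g ∈ x.coeff.support, ∀ h ∈ y.coeff.support, σ g (σ h v) = σ (g * h) v) (w : Fin n) :
    (approxHom σ x * approxHom σ y) w v = approxHom σ (x * y) w v := by
  conv_lhs => rw [← sum_coeff_single x, ← sum_coeff_single y]
  conv_rhs => rw [← sum_coeff_single x, ← sum_coeff_single y]
  simp only [Finsupp.sum, Finset.sum_mul_sum, map_sum, Matrix.sum_apply]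
  refine Finset.sum_congr rfl fun g hg => Finset.sum_congr rfl fun g' hg' => ?_
  rw [single_mul_single, approxHom_single, Matrix.mul_apply,
    Finset.sum_eq_single (σ g' v)]
  · simp [approxHom_single, h g hg g' hg', ite_mul]
  · intro u _ hu
    simp [approxHom_single, Ne.symm hu]
  · simp

/-- The block version for matrices over the group algebra. -/
noncomputable def approxMat {m : ℕ} (σ : Q → Equiv.Perm (Fin n))
    (a : Matrix (Fin m) (Fin m) (MonoidAlgebra K Q)) :
    Matrix (Fin m × Fin n) (Fin m × Fin n) K :=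
  fun p q => approxHom σ (a p.1 q.1) p.2 q.2

theorem approxMat_mul_col {m : ℕ} (σ : Q → Equiv.Perm (Fin n))
    (a b : Matrix (Fin m) (Fin m) (MonoidAlgebra K Q)) (q : Fin m × Fin n)
    (h : ∀ i l j, ∀ g ∈ (a i l).coeff.support, ∀ h ∈ (b l j).coeff.support,
      σ g (σ h q.2) = σ (g * h) q.2) (p : Fin m × Fin n) :
    (approxMat σ a * approxMat σ b) p q = approxMat σ (a * b) p q := by
  simp only [approxMat, Matrix.mul_apply, Fintype.sum_prod_type, map_sum, Matrix.sum_apply]
  refine Finset.sum_congr rfl fun l _ => ?_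
  rw [← approxHom_mul_col σ (a p.1 l) (b l q.1) q.2 (h _ _ _), Matrix.mul_apply]

theorem approxMat_sub {m : ℕ} (σ : Q → Equiv.Perm (Fin n))
    (a b : Matrix (Fin m) (Fin m) (MonoidAlgebra K Q)) :
    approxMat σ (a - b) = approxMat σ a - approxMat σ b := by
  ext p q
  simp [approxMat]

theorem approxMat_one_col {m : ℕ} (σ : Q → Equiv.Perm (Fin n)) (q p : Fin m × Fin n)
    (h : σ 1 q.2 = q.2) :
    approxMat σ (1 : Matrix (Fin m) (Fin m) (MonoidAlgebra K Q)) p q
      = (1 : Matrix (Fin m × Fin n) (Fin m × Fin n) K) p q := by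
  obtain ⟨i, w⟩ := p
  obtain ⟨j, v⟩ := q
  simp only [approxMat, Matrix.one_apply, Prod.mk.injEq]
  by_cases hij : i = j
  · simp only [hij, ↓reduceIte, true_and, one_def, approxHom_single]
    rw [show σ 1 v = v from h]
    simp only [eq_comm]
  · simp [hij]

end

/-- A maximal set of points whose translates by `T` are disjoint covers the good points. -/
theorem exists_packing {Q : Type v} [Group Q] {n : ℕ} (σ : Q → Equiv.Perm (Fin n)) (T : Finset Q)
    (h1T : (1 : Q) ∈ T) (good : Finset (Fin n)) :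
    ∃ W : Finset (Fin n), W ⊆ good ∧
      (∀ w ∈ W, ∀ w' ∈ W, ∀ g ∈ T, ∀ h ∈ T, σ g w = σ h w' → w = w') ∧
      good.card ≤ W.card * (T.card * T.card) := by
  classical
  let P : Finset (Fin n) → Prop := fun W => W ⊆ good ∧
    ∀ w ∈ W, ∀ w' ∈ W, ∀ g ∈ T, ∀ h ∈ T, σ g w = σ h w' → w = w'
  obtain ⟨W, hWmem, hWmax⟩ := (Finset.univ.filter P).exists_max_image Finset.card
    ⟨∅, by simp [P]⟩
  have hW : P W := (Finset.mem_filter.1 hWmem).2
  refine ⟨W, hW.1, hW.2, ?_⟩
  have hcover : good ⊆ (W ×ˢ (T ×ˢ T)).image fun x => (σ x.2.2).symm (σ x.2.1 x.1) := by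
    intro v hv
    by_contra hvn
    have hnot : ∀ w ∈ W, ∀ g ∈ T, ∀ h ∈ T, σ g w ≠ σ h v := by
      intro w hw g hg h hh heq
      exact hvn (Finset.mem_image.2 ⟨(w, g, h),
        Finset.mem_product.2 ⟨hw, Finset.mem_product.2 ⟨hg, hh⟩⟩, by simp [heq]⟩)
    have hvW : v ∉ W := fun hvW => hnot v hvW 1 h1T 1 h1T rfl
    have hP : P (insert v W) := by
      refine ⟨Finset.insert_subset hv hW.1, ?_⟩
      intro w hw w' hw' g hg h hh heq
      rcases Finset.mem_insert.1 hw with hv1 | hw1 <;>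
        rcases Finset.mem_insert.1 hw' with hv2 | hw2
      · rw [hv1, hv2]
      · rw [hv1] at heq
        exact absurd heq.symm (hnot w' hw2 h hh g hg)
      · rw [hv2] at heq
        exact absurd heq (hnot w hw1 g hg h hh)
      · exact hW.2 w hw1 w' hw2 g hg h hh heq
    have := hWmax _ (Finset.mem_filter.2 ⟨Finset.mem_univ _, hP⟩)
    rw [Finset.card_insert_of_notMem hvW] at this
    omega
  refine (Finset.card_le_card hcover).trans (Finset.card_image_le.trans ?_)
  rw [Finset.card_product, Finset.card_product]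

/-- The linear algebra step: good columns and a packing give independent vectors. -/
theorem dim_bound {K : Type u} [Field K] {Q : Type v} [Group Q] {n m : ℕ}
    (σ : Q → Equiv.Perm (Fin n)) (a b : Matrix (Fin m) (Fin m) (MonoidAlgebra K Q))
    (hab : a * b = 1) (i₀ j₀ : Fin m) (g₀ : Q) (hc : ((1 - b * a) i₀ j₀).coeff g₀ ≠ 0)
    (T : Finset Q) (hg₀T : g₀ ∈ T) (hTa : ∀ i j, (a i j).coeff.support ⊆ T)
    (hTb : ∀ i j, (b i j).coeff.support ⊆ T)
    (hTd : ∀ i j, ((1 - b * a) i j).coeff.support ⊆ T) (good W : Finset (Fin n))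
    (hgmul : ∀ v ∈ good, ∀ g ∈ T, ∀ h ∈ T, σ g (σ h v) = σ (g * h) v)
    (hg1 : ∀ v ∈ good, σ 1 v = v)
    (hsep : ∀ v ∈ good, ∀ g ∈ T, ∀ h ∈ T, σ g v = σ h v → g = h)
    (hW1 : W ⊆ good) (hW2 : ∀ w ∈ W, ∀ w' ∈ W, ∀ g ∈ T, ∀ h ∈ T, σ g w = σ h w' → w = w') :
    m * good.card + W.card ≤ m * n := by
  classical
  let Ma := approxMat σ a
  let Mb := approxMat σ b
  let Jg : Matrix (Fin m × Fin n) (Fin m × good) K :=
    fun p q => if p = (q.1, (q.2 : Fin n)) then 1 else 0
  let Jw : Matrix (Fin m × Fin n) W K := fun p w => if p = (j₀, (w : Fin n)) then 1 else 0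
  have hABcol : ∀ (q : Fin m × Fin n), q.2 ∈ good → ∀ p,
      (Ma * Mb) p q = (1 : Matrix (Fin m × Fin n) (Fin m × Fin n) K) p q := by
    intro q hq p
    rw [approxMat_mul_col σ a b q (fun i l j g hg h hh =>
      hgmul _ hq g (hTa _ _ hg) h (hTb _ _ hh)) p, hab, approxMat_one_col σ q p (hg1 _ hq)]
  have hBAcol : ∀ (q : Fin m × Fin n), q.2 ∈ good → ∀ p,
      (1 - Mb * Ma) p q = approxMat σ (1 - b * a) p q := by
    intro q hq p
    rw [approxMat_sub, Matrix.sub_apply, Matrix.sub_apply, approxMat_one_col σ q p (hg1 _ hq),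
      approxMat_mul_col σ b a q (fun i l j g hg h hh =>
        hgmul _ hq g (hTb _ _ hg) h (hTa _ _ hh)) p]
  have hJg : Ma * (Mb * Jg) = Jg := by
    rw [← Matrix.mul_assoc]
    ext p q
    rw [Matrix.mul_apply, Finset.sum_eq_single (q.1, (q.2 : Fin n))]
    · rw [hABcol (q.1, (q.2 : Fin n)) q.2.2 p]
      simp [Jg, Matrix.one_apply]
    · intro r _ hr
      simp [Jg, hr]
    · simp
  have hJgz : (1 - Mb * Ma) * (Mb * Jg) = 0 := by
    rw [Matrix.sub_mul, Matrix.one_mul, Matrix.mul_assoc, hJg, sub_self]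
  let R : Matrix (Fin m × Fin n) W K := (1 - Mb * Ma) * Jw
  have hJw : ∀ (w w' : W), R (i₀, σ g₀ (w : Fin n)) w' =
      if w = w' then ((1 - b * a) i₀ j₀).coeff g₀ else 0 := by
    intro w w'
    simp only [R]
    rw [Matrix.mul_apply, Finset.sum_eq_single (j₀, (w' : Fin n))]
    · rw [hBAcol (j₀, (w' : Fin n)) (hW1 w'.2)]
      simp only [Jw, ↓reduceIte, mul_one, approxMat, approxHom, approx, AddMonoidHom.coe_mk,
        ZeroHom.coe_mk, Finsupp.sum]
      by_cases hww : w = w'
      · subst hww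
        rw [if_pos rfl, Finset.sum_eq_single g₀]
        · simp
        · intro g hg hgne
          rw [if_neg]
          exact fun heq => hgne (hsep _ (hW1 w.2) g (hTd _ _ hg) g₀ hg₀T heq)
        · intro hg
          rw [if_pos rfl, Finsupp.notMem_support_iff.1 hg]
      · rw [if_neg hww]
        refine Finset.sum_eq_zero fun g hg => ?_
        rw [if_neg]
        intro heq
        exact hww (Subtype.ext (hW2 w' w'.2 w w.2 g (hTd _ _ hg) g₀ hg₀T heq)).symm
    · intro r _ hr
      simp [Jw, hr]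
    · simp
  let L : ((Fin m × good → K) × (W → K)) →ₗ[K] (Fin m × Fin n → K) :=
    LinearMap.coprod (Mb * Jg).mulVecLin Jw.mulVecLin
  have hL : Function.Injective L := by
    rw [injective_iff_map_eq_zero]
    rintro ⟨x, y⟩ hxy
    have hxy' : (Mb * Jg).mulVec x + Jw.mulVec y = 0 := hxy
    have h2 := congrArg ((1 - Mb * Ma).mulVec) hxy'
    rw [Matrix.mulVec_add, Matrix.mulVec_mulVec, Matrix.mulVec_mulVec, hJgz, Matrix.zero_mulVec,
      zero_add, Matrix.mulVec_zero] at h2
    have hy : y = 0 := by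
      funext w
      have h3 : ∑ w' : W, R (i₀, σ g₀ (w : Fin n)) w' * y w' = 0 :=
        congrFun h2 (i₀, σ g₀ (w : Fin n))
      rw [Finset.sum_eq_single w, hJw, if_pos rfl] at h3
      · exact (mul_eq_zero.1 h3).resolve_left hc
      · intro w' _ hw'
        rw [hJw, if_neg (Ne.symm hw'), zero_mul]
      · simp
    subst hy
    rw [Matrix.mulVec_zero, add_zero] at hxy'
    have h4 := congrArg Ma.mulVec hxy'
    rw [Matrix.mulVec_mulVec, hJg, Matrix.mulVec_zero] at h4
    have hx : x = 0 := by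
      funext q
      have h5 : ∑ q' : Fin m × good, Jg (q.1, (q.2 : Fin n)) q' * x q' = 0 :=
        congrFun h4 (q.1, (q.2 : Fin n))
      rw [Finset.sum_eq_single q] at h5
      · simpa [Jg] using h5
      · intro q' _ hq'
        have : ((q.1, (q.2 : Fin n)) : Fin m × Fin n) ≠ (q'.1, (q'.2 : Fin n)) := fun hcon =>
          hq' (Prod.ext (Prod.mk.inj hcon).1.symm (Subtype.ext (Prod.mk.inj hcon).2.symm))
        simp [Jg, this]
      · simp
    rw [hx]
    rfl
  have hdim := LinearMap.finrank_le_finrank_of_injective hL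
  simpa only [Module.finrank_prod, Module.finrank_fintype_fun_eq_card, Fintype.card_prod,
    Fintype.card_fin, Fintype.card_coe] using hdim

/-- The final count. -/
theorem sofic_arith (t m n g b w : ℕ) (C ε : ℝ) (hC : 0 ≤ C)
    (hCdef : C = ((m : ℝ) * (t : ℝ) ^ 2 + 1) * ((t : ℝ) ^ 2 + t)) (hεdef : ε = 1 / (C + 1))
    (hn : 0 < n) (hgood : g + b = n) (hWb : w ≤ m * b) (hgW : g ≤ w * (t * t))
    (hbad : (b : ℝ) ≤ ((t : ℝ) ^ 2 + t) * (ε * n)) : False := by
  have hn1 : n ≤ (m * (t * t) + 1) * b :=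
    calc n = g + b := hgood.symm
      _ ≤ w * (t * t) + b := Nat.add_le_add_right hgW _
      _ ≤ m * b * (t * t) + b := by gcongr
      _ = _ := by ring
  have hn2 : (n : ℝ) ≤ C * ε * n := by
    have h3 : (n : ℝ) ≤ ((m : ℝ) * (t * t) + 1) * b := by exact_mod_cast hn1
    calc (n : ℝ) ≤ ((m : ℝ) * (t * t) + 1) * b := h3
      _ ≤ ((m : ℝ) * (t * t) + 1) * (((t : ℝ) ^ 2 + t) * (ε * n)) :=
        mul_le_mul_of_nonneg_left hbad (by positivity)
      _ = _ := by rw [hCdef]; ring
  have hεC : C * ε < 1 := by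
    rw [hεdef, mul_one_div, div_lt_one (by linarith)]
    linarith
  have hnpos : (0 : ℝ) < n := by exact_mod_cast hn
  nlinarith [mul_lt_mul_of_pos_right hεC hnpos]

/-- Bad points are few. -/
theorem card_biUnion_le_mul {α : Type*} {n : ℕ} [DecidableEq (Fin n)] (S : Finset α)
    (f : α → Finset (Fin n)) (k : ℕ) (δ : ℝ) (hδ : 0 ≤ δ) (hk : S.card ≤ k)
    (h : ∀ x ∈ S, ((f x).card : ℝ) ≤ δ) : ((S.biUnion f).card : ℝ) ≤ k * δ := by
  refine (Nat.cast_le.2 Finset.card_biUnion_le).trans ?_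
  rw [Nat.cast_sum]
  refine (Finset.sum_le_card_nsmul _ _ δ h).trans ?_
  rw [nsmul_eq_mul]
  exact mul_le_mul_of_nonneg_right (Nat.cast_le.2 hk) hδ

/-- Sofic groups have stably finite group algebras over every field. -/
theorem IsSofic.isStablyFiniteRing {Q : Type v} [Group Q] (hQ : IsSofic Q)
    (K : Type u) [Field K] : IsStablyFiniteRing (MonoidAlgebra K Q) := by
  classical
  refine ⟨fun m => ⟨fun {a b} hab => ?_⟩⟩
  by_contra hne
  obtain ⟨i₀, j₀, g₀, hc⟩ : ∃ i j g, ((1 - b * a) i j).coeff g ≠ 0 := by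
    by_contra hcon
    push Not at hcon
    refine hne (sub_eq_zero.1 (?_ : 1 - b * a = 0)).symm
    ext i j g
    simpa using hcon i j g
  let supp : Matrix (Fin m) (Fin m) (MonoidAlgebra K Q) → Finset Q := fun x =>
    Finset.univ.biUnion fun i => Finset.univ.biUnion fun j => (x i j).coeff.support
  have hsupp : ∀ x i j, (x i j).coeff.support ⊆ supp x := fun x i j g hg =>
    Finset.mem_biUnion.2 ⟨i, Finset.mem_univ _, Finset.mem_biUnion.2 ⟨j, Finset.mem_univ _, hg⟩⟩
  obtain ⟨T, h1T, hinvT, hg₀T, hTa, hTb, hTd⟩ : ∃ T : Finset Q, (1 : Q) ∈ T ∧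
      (∀ g ∈ T, g⁻¹ ∈ T) ∧ g₀ ∈ T ∧ (∀ i j, (a i j).coeff.support ⊆ T) ∧
      (∀ i j, (b i j).coeff.support ⊆ T) ∧
      (∀ i j, ((1 - b * a) i j).coeff.support ⊆ T) := by
    let T₀ : Finset Q := insert 1 (insert g₀ (supp a ∪ supp b ∪ supp (1 - b * a)))
    refine ⟨T₀ ∪ T₀.image fun g => g⁻¹, by simp [T₀], ?_, by simp [T₀], ?_, ?_, ?_⟩
    · intro g hg
      rcases Finset.mem_union.1 hg with hg | hg
      · exact Finset.mem_union_right _ (Finset.mem_image_of_mem _ hg)
      · obtain ⟨h, hh, rfl⟩ := Finset.mem_image.1 hg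
        exact Finset.mem_union_left _ (by rwa [inv_inv])
    all_goals
      intro i j g hg
      refine Finset.mem_union_left _ ?_
      simp [T₀, hsupp _ i j hg]
  let F : Finset Q := T ∪ (T ×ˢ T).image fun x => x.1 * x.2
  set t : ℕ := F.card with ht
  obtain ⟨C, hCdef⟩ : ∃ C : ℝ, C = ((m : ℝ) * (t : ℝ) ^ 2 + 1) * ((t : ℝ) ^ 2 + t) := ⟨_, rfl⟩
  have hC : 0 ≤ C := by rw [hCdef]; positivity
  obtain ⟨ε, hεdef⟩ : ∃ ε : ℝ, ε = 1 / (C + 1) := ⟨_, rfl⟩
  have hε : 0 < ε := by rw [hεdef]; positivity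
  obtain ⟨n, hn, σ, hmul, hfix⟩ := hQ F ε hε
  have hTF : T ⊆ F := Finset.subset_union_left
  let badMul : Finset (Fin n) := (T ×ˢ T).biUnion fun x =>
    Finset.univ.filter fun v => σ x.1 (σ x.2 v) ≠ σ (x.1 * x.2) v
  let badFix : Finset (Fin n) := (F.erase 1).biUnion fun g =>
    Finset.univ.filter fun v => σ g v = v
  let bad := badMul ∪ badFix
  let good : Finset (Fin n) := badᶜ
  have hgmul : ∀ v ∈ good, ∀ g ∈ T, ∀ h ∈ T, σ g (σ h v) = σ (g * h) v := by
    intro v hv g hg h hh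
    by_contra hne'
    exact Finset.mem_compl.1 hv (Finset.mem_union_left _
      (Finset.mem_biUnion.2 ⟨(g, h), Finset.mem_product.2 ⟨hg, hh⟩, by simpa using hne'⟩))
  have hg1 : ∀ v ∈ good, σ 1 v = v := by
    intro v hv
    have := hgmul v hv 1 h1T 1 h1T
    rw [mul_one] at this
    exact (σ 1).injective this
  have hsep : ∀ v ∈ good, ∀ g ∈ T, ∀ h ∈ T, σ g v = σ h v → g = h := by
    intro v hv g hg h hh heq
    by_contra hgh
    have h2 := congrArg (σ g⁻¹) heq
    rw [hgmul v hv _ (hinvT g hg) _ hg, hgmul v hv _ (hinvT g hg) _ hh, inv_mul_cancel,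
      hg1 v hv] at h2
    refine Finset.mem_compl.1 hv (Finset.mem_union_right _
      (Finset.mem_biUnion.2 ⟨g⁻¹ * h, Finset.mem_erase.2 ⟨?_, ?_⟩, by simpa using h2.symm⟩))
    · exact fun hcon => hgh (inv_mul_eq_one.1 hcon)
    · exact Finset.mem_union_right _ (Finset.mem_image.2
        ⟨(g⁻¹, h), Finset.mem_product.2 ⟨hinvT g hg, hh⟩, rfl⟩)
  obtain ⟨W, hW1, hW2, hW3⟩ := exists_packing σ T h1T good
  have hdim := dim_bound σ a b hab i₀ j₀ g₀ hc T hg₀T hTa hTb hTd good W hgmul hg1 hsep hW1 hW2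
  have hgood : good.card + bad.card = n := by
    rw [Finset.card_compl, Fintype.card_fin]
    have := Finset.card_le_univ bad
    rw [Fintype.card_fin] at this
    omega
  have hWb : W.card ≤ m * bad.card := by
    have : m * good.card + m * bad.card = m * n := by rw [← mul_add, hgood]
    omega
  have hTt : T.card ≤ t := Finset.card_le_card hTF
  have hgW : good.card ≤ W.card * (t * t) :=
    hW3.trans (Nat.mul_le_mul_left _ (Nat.mul_le_mul hTt hTt))
  have hεn : 0 ≤ ε * n := mul_nonneg hε.le n.cast_nonneg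
  have h1 : (badMul.card : ℝ) ≤ ((t : ℝ) * t) * (ε * n) := by
    rw [← Nat.cast_mul]
    exact card_biUnion_le_mul (T ×ˢ T) _ (t * t) (ε * n) hεn
      ((Finset.card_product T T).trans_le (Nat.mul_le_mul hTt hTt))
      (fun x hx => hmul _ (hTF (Finset.mem_product.1 hx).1) _ (hTF (Finset.mem_product.1 hx).2))
  have h2 : (badFix.card : ℝ) ≤ (t : ℝ) * (ε * n) :=
    card_biUnion_le_mul (F.erase 1) _ t (ε * n) hεn Finset.card_erase_le
      (fun x hx => hfix _ (Finset.mem_of_mem_erase hx) (Finset.ne_of_mem_erase hx))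
  have hbad : (bad.card : ℝ) ≤ ((t : ℝ) ^ 2 + t) * (ε * n) := by
    have h3 : (bad.card : ℝ) ≤ (badMul.card : ℝ) + badFix.card := by
      exact_mod_cast Finset.card_union_le _ _
    calc (bad.card : ℝ) ≤ (badMul.card : ℝ) + badFix.card := h3
      _ ≤ (t : ℝ) * t * (ε * n) + t * (ε * n) := add_le_add h1 h2
      _ = _ := by ring
  exact sofic_arith t m n good.card bad.card W.card C ε hC hCdef hεdef hn hgood hWb hgW hbad

end Vale.Agent.P194
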