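import Mathlib
import Vale.Agent.P194.Residual
import Vale.Agent.P194.Sofic
import Vale.Agent.P194.Descent
import Vale.Agent.P194.FreeResidual

/-!
# Stable finiteness for groups with residually-p kernel and sofic quotient
-/

namespace Vale.Agent.P194

universe u v w

theorem residuallyP_of_equiv {p : ℕ} {N : Type v} [Group N] {N' : Type w} [Group N']
    (e : N ≃* N') (h : ResiduallyP p N) : ResiduallyP p N' := by
  intro x hx
  obtain ⟨M, hn, hk, hxM⟩ := h (e.symm x) fun h1 => hx (by simpa using congrArg e h1)
  refine ⟨M.comap e.symm.toMonoidHom, hn.comap _, ?_, hxM⟩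
  rwa [Subgroup.index_comap_of_surjective _ e.symm.surjective]

/-- Residually-`p` for every `p` by sofic: stably finite over every field. -/
theorem isStablyFiniteRing_of_residuallyP_sofic {G : Type v} [Group G] (N : Subgroup G)
    [N.Normal] (hN : ∀ p : ℕ, p.Prime → ResiduallyP p N) (hQ : IsSofic (G ⧸ N))
    (K : Type u) [Field K] : IsStablyFiniteRing (MonoidAlgebra K G) := by
  refine isStablyFiniteRing_of_prime_char (fun p hp F _ _ => ?_) K
  have : Fact p.Prime := ⟨hp⟩
  have := hQ.isStablyFiniteRing F
  exact isStablyFiniteRing_of_residuallyP p N (hN p hp)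

/-- Sanity check: finite groups are sofic. -/
theorem isSofic_of_finite (Q : Type v) [Group Q] [Finite Q] : IsSofic Q := by
  intro F ε hε
  obtain ⟨n, ⟨e⟩⟩ := Finite.exists_equiv_fin Q
  refine ⟨n, Fin.pos_iff_nonempty.2 ⟨e 1⟩, fun g => e.permCongr (Equiv.mulLeft g), ?_, ?_⟩
  · intro g _ h _
    rw [Finset.filter_eq_empty_iff.2 (fun v _ => by simp), Finset.card_empty,
      Nat.cast_zero]
    positivity
  · intro g _ hg
    rw [Finset.filter_eq_empty_iff.2 (fun v _ => by simp [Equiv.apply_eq_iff_eq_symm_apply, hg]),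
      Finset.card_empty, Nat.cast_zero]
    positivity

end Vale.Agent.P194
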