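import Mathlib
import Vale.Agent.P194.Main

/-!
# Locally residually-p kernels, central torsion-free kernels, local embeddability
-/

namespace Vale.Agent.P194

open MonoidAlgebra

universe u v w

/-- Every finite subset of `N` lies in a residually-`p` subgroup of `N` that is normal in `G`. -/
def LocallyResiduallyP (p : ℕ) {G : Type*} [Group G] (N : Subgroup G) : Prop :=
  ∀ S : Finset G, (S : Set G) ⊆ N →
    ∃ M : Subgroup G, M.Normal ∧ M ≤ N ∧ (S : Set G) ⊆ M ∧ ResiduallyP p M

theorem locallyResiduallyP_of_residuallyP {p : ℕ} {G : Type v} [Group G] {N : Subgroup G}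
    [hn : N.Normal] (h : ResiduallyP p N) : LocallyResiduallyP p N :=
  fun _ hS => ⟨N, hn, le_rfl, hS, h⟩

theorem mapDomain_eq_zero_of_refines {R : Type u} [Semiring R] {α : Type v} {β : Type*}
    {γ : Type*} (ψ : α → β) (φ : α → γ) (x : MonoidAlgebra R α) (hx : mapDomain ψ x = 0)
    (h : ∀ g ∈ x.coeff.support, ∀ g' ∈ x.coeff.support, ψ g = ψ g' → φ g = φ g') :
    mapDomain φ x = 0 := by
  classical
  by_cases he : x = 0
  · simp [he]
  have hne : x.coeff.support.Nonempty :=
    Finsupp.support_nonempty_iff.2 fun hz => he (coeff_injective hz)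
  obtain ⟨g₀, hg₀⟩ := hne
  let f : β → γ := fun b =>
    if hb : ∃ g ∈ x.coeff.support, ψ g = b then φ hb.choose else φ g₀
  have hf : ∀ g ∈ x.coeff.support, φ g = (f ∘ ψ) g := by
    intro g hg
    have hb : ∃ g' ∈ x.coeff.support, ψ g' = ψ g := ⟨g, hg, rfl⟩
    simp only [f, Function.comp_apply, dif_pos hb]
    exact h g hg _ hb.choose_spec.1 hb.choose_spec.2.symm
  apply coeff_injective
  have hx' : Finsupp.mapDomain ψ x.coeff = 0 := by
    simpa using congrArg MonoidAlgebra.coeff hx
  rw [coeff_mapDomain, Finsupp.mapDomain_congr hf, Finsupp.mapDomain_comp, hx']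
  simp

/-- Extension by a locally residually-`p` kernel. -/
theorem isStablyFiniteRing_of_locallyResiduallyP {K : Type u} [Field K] {G : Type v} [Group G]
    (p : ℕ) [Fact p.Prime] [CharP K p] (N : Subgroup G) [N.Normal]
    (hN : LocallyResiduallyP p N) [IsStablyFiniteRing (MonoidAlgebra K (G ⧸ N))] :
    IsStablyFiniteRing (MonoidAlgebra K G) := by
  classical
  refine ⟨fun n => ⟨fun {a b} hab => ?_⟩⟩
  let f := (mapDomainRingHom K (QuotientGroup.mk' N)).mapMatrix (m := Fin n)
  have hf : f b * f a = 1 := mul_eq_one_symm (by rw [← map_mul, hab, map_one])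
  have he : (1 - b * a) * (1 - b * a) = 1 - b * a := by
    have : b * a * (b * a) = b * a := by
      calc b * a * (b * a) = b * (a * b) * a := by simp only [mul_assoc]
        _ = b * a := by rw [hab, mul_one]
    noncomm_ring [this]
  have h0 : f (1 - b * a) = 0 := by rw [map_sub, map_one, map_mul, hf, sub_self]
  let e := 1 - b * a
  let T : Finset G := Finset.univ.biUnion fun i => Finset.univ.biUnion fun j =>
    (e i j).coeff.support
  let S : Finset G := ((T ×ˢ T).image fun z => z.1⁻¹ * z.2).filter fun g => g ∈ N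
  obtain ⟨M, hMn, hMN, hSM, hMp⟩ := hN S fun g hg => (Finset.mem_filter.1 hg).2
  have hzero : ∀ i j, mapDomain (QuotientGroup.mk' M) (e i j) = 0 := by
    intro i j
    have hij : mapDomain (QuotientGroup.mk' N) (e i j) = 0 := by
      have h1 := congrFun (congrFun h0 i) j
      simpa [f, e] using h1
    refine mapDomain_eq_zero_of_refines _ _ _ hij fun g hg g' hg' hgg => ?_
    have hmemT : ∀ {g}, g ∈ (e i j).coeff.support → g ∈ T := fun hg =>
      Finset.mem_biUnion.2 ⟨i, Finset.mem_univ _,
        Finset.mem_biUnion.2 ⟨j, Finset.mem_univ _, hg⟩⟩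
    have hN' : g⁻¹ * g' ∈ N := QuotientGroup.eq.1 hgg
    refine QuotientGroup.eq.2 (hSM ?_)
    exact Finset.mem_filter.2 ⟨Finset.mem_image.2
      ⟨(g, g'), Finset.mem_product.2 ⟨hmemT hg, hmemT hg'⟩, rfl⟩, hN'⟩
  have := idempotent_eq_zero p M hMp e he hzero
  exact (sub_eq_zero.1 this).symm

/-- Over all fields at once. -/
theorem isStablyFiniteRing_of_locallyResiduallyP_all {G : Type v} [Group G] (N : Subgroup G)
    [N.Normal] (hN : ∀ p : ℕ, p.Prime → LocallyResiduallyP p N)
    (hQ : ∀ (F : Type u) [Field F], IsStablyFiniteRing (MonoidAlgebra F (G ⧸ N)))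
    (K : Type u) [Field K] : IsStablyFiniteRing (MonoidAlgebra K G) := by
  refine isStablyFiniteRing_of_prime_char (fun p hp F _ _ => ?_) K
  have : Fact p.Prime := ⟨hp⟩
  have := hQ F
  exact isStablyFiniteRing_of_locallyResiduallyP p N (hN p hp)

theorem mapDomain_mul_of_mulOn {R : Type u} [Ring R] {G : Type v} [Group G] {H : Type w}
    [Group H] (φ : G → H) (x y : MonoidAlgebra R G)
    (h : ∀ g ∈ x.coeff.support, ∀ g' ∈ y.coeff.support, φ (g * g') = φ g * φ g') :
    mapDomain φ (x * y) = mapDomain φ x * mapDomain φ y := by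
  classical
  let ψ : MonoidAlgebra R G →+ MonoidAlgebra R H :=
    AddMonoidHom.mk' (mapDomain φ) (mapDomain_add φ)
  show ψ (x * y) = ψ x * ψ y
  conv_lhs => rw [← sum_coeff_single x, ← sum_coeff_single y]
  conv_rhs => rw [← sum_coeff_single x, ← sum_coeff_single y]
  simp only [Finsupp.sum, Finset.sum_mul_sum, map_sum]
  refine Finset.sum_congr rfl fun g hg => Finset.sum_congr rfl fun g' hg' => ?_
  simp [ψ, single_mul_single, h g hg g' hg']

/-- Stable finiteness is a local property. -/
theorem isStablyFiniteRing_of_local {K : Type u} [Field K] {G : Type v} [Group G]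
    (h : ∀ S : Finset G, ∃ (H : Type v) (_ : Group H) (φ : G → H), Set.InjOn φ S ∧
      (∀ g ∈ S, ∀ g' ∈ S, φ (g * g') = φ g * φ g') ∧
      IsStablyFiniteRing (MonoidAlgebra K H)) :
    IsStablyFiniteRing (MonoidAlgebra K G) := by
  classical
  refine ⟨fun n => ⟨fun {a b} hab => ?_⟩⟩
  let supp : Matrix (Fin n) (Fin n) (MonoidAlgebra K G) → Finset G := fun x =>
    Finset.univ.biUnion fun i => Finset.univ.biUnion fun j => (x i j).coeff.support
  have hsupp : ∀ x i j, (x i j).coeff.support ⊆ supp x := fun x i j g hg =>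
    Finset.mem_biUnion.2 ⟨i, Finset.mem_univ _, Finset.mem_biUnion.2 ⟨j, Finset.mem_univ _, hg⟩⟩
  let S : Finset G := {1} ∪ supp a ∪ supp b ∪ supp (b * a)
  have hSa : supp a ⊆ S := fun g hg => by simp [S, hg]
  have hSb : supp b ⊆ S := fun g hg => by simp [S, hg]
  have hSba : supp (b * a) ⊆ S := fun g hg => by simp [S, hg]
  have h1S : (1 : G) ∈ S := by simp [S]
  obtain ⟨H, _, φ, hinj, hmul, hH⟩ := h S
  have hφ1 : φ 1 = 1 := by
    have h1 := hmul 1 h1S 1 h1S
    rw [one_mul] at h1
    exact mul_eq_left.1 h1.symm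
  let ψ : MonoidAlgebra K G →+ MonoidAlgebra K H :=
    AddMonoidHom.mk' (mapDomain φ) (mapDomain_add φ)
  have hone : ψ 1 = 1 := by simp [ψ, one_def, hφ1]
  have hmap : ∀ x y, supp x ⊆ S → supp y ⊆ S → (x * y).map ψ = x.map ψ * y.map ψ := by
    intro x y hx hy
    ext i j : 1
    simp only [Matrix.map_apply, Matrix.mul_apply, map_sum]
    exact Finset.sum_congr rfl fun l _ => mapDomain_mul_of_mulOn φ _ _ fun g hg g' hg' =>
      hmul g (hx (hsupp x i l hg)) g' (hy (hsupp y l j hg'))
  have hab' : a.map ψ * b.map ψ = 1 := by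
    rw [← hmap a b hSa hSb, hab, Matrix.map_one _ (map_zero ψ) hone]
  have hba' : (b * a).map ψ = (1 : Matrix (Fin n) (Fin n) (MonoidAlgebra K G)).map ψ := by
    rw [hmap b a hSb hSa, mul_eq_one_symm hab', Matrix.map_one _ (map_zero ψ) hone]
  ext i j : 1
  have hij := congrArg MonoidAlgebra.coeff (congrFun (congrFun hba' i) j)
  refine coeff_injective (Finsupp.mapDomain_injOn (S : Set G) hinj ?_ ?_ hij)
  · exact fun g hg => hSba (hsupp _ i j hg)
  · intro g hg
    by_cases hij' : i = j
    · rw [hij', Matrix.one_apply_eq, one_def, coeff_single, Finset.mem_coe] at hg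
      have h2 := Finsupp.support_single_subset hg
      rw [Finset.mem_singleton] at h2
      subst h2
      exact h1S
    · simp [Matrix.one_apply_ne hij'] at hg

/-- Finitely generated torsion-free abelian groups are residually finite `p`-groups. -/
theorem residuallyP_of_fg_torsionFree {A : Type v} [CommGroup A] [Group.FG A]
    (htf : ∀ (x : A) (n : ℕ), n ≠ 0 → x ^ n = 1 → x = 1) (p : ℕ) [hp : Fact p.Prime] :
    ResiduallyP p A := by
  classical
  have : IsMulTorsionFree A := by
    refine ⟨fun n hn x y hxy => ?_⟩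
    have h1 : (x * y⁻¹) ^ n = 1 := by
      rw [mul_pow, inv_pow, show x ^ n = y ^ n from hxy, mul_inv_cancel]
    exact mul_inv_eq_one.1 (htf _ n hn h1)
  have : Module.Finite ℤ (Additive A) := Module.Finite.iff_addGroup_fg.2 inferInstance
  have : Module.Free ℤ (Additive A) := inferInstance
  intro x hx
  let bas := Module.Free.chooseBasis ℤ (Additive A)
  obtain ⟨i, hi⟩ : ∃ i, bas.repr (Additive.ofMul x) i ≠ 0 := by
    by_contra hcon
    push Not at hcon
    have h0 : bas.repr (Additive.ofMul x) = 0 := Finsupp.ext hcon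
    exact hx (by simpa using h0)
  let k := (bas.repr (Additive.ofMul x) i).natAbs
  have : NeZero (p ^ k) := ⟨pow_ne_zero _ hp.out.ne_zero⟩
  let c : A →* Multiplicative (ZMod (p ^ k)) := AddMonoidHom.toMultiplicativeRight
    ((Int.castAddHom (ZMod (p ^ k))).comp
      ((Finsupp.applyAddHom i).comp bas.repr.toLinearMap.toAddMonoidHom))
  refine ⟨c.ker, inferInstance, ?_, ?_⟩
  · have hdvd : c.ker.index ∣ p ^ k := by
      rw [Subgroup.index_ker]
      refine (Subgroup.card_subgroup_dvd_card c.range).trans ?_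
      simp
    obtain ⟨l, -, hl⟩ := (Nat.dvd_prime_pow hp.out).1 hdvd
    exact ⟨l, hl⟩
  · intro hmem
    have h1 : ((bas.repr (Additive.ofMul x) i : ℤ) : ZMod (p ^ k)) = 0 := by
      have h2 := MonoidHom.mem_ker.1 hmem
      simpa [c] using h2
    rw [ZMod.intCast_zmod_eq_zero_iff_dvd] at h1
    have h3 := Nat.le_of_dvd (Int.natAbs_pos.2 hi) (Int.natCast_dvd.1 h1)
    exact absurd h3 (not_le.2 (Nat.lt_pow_self hp.out.one_lt))

/-- Central torsion-free subgroups are locally residually `p` for every prime `p`. -/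
theorem locallyResiduallyP_of_central {G : Type v} [Group G] {N : Subgroup G}
    (hc : N ≤ Subgroup.center G) (htf : ∀ x ∈ N, ∀ n : ℕ, n ≠ 0 → x ^ n = 1 → x = 1)
    (p : ℕ) [Fact p.Prime] : LocallyResiduallyP p N := by
  intro S hS
  let M : Subgroup G := Subgroup.closure (S : Set G)
  have hMN : M ≤ N := (Subgroup.closure_le N).2 hS
  have hn : M.Normal := ⟨fun n hn g => by
    rwa [Subgroup.mem_center_iff.1 (hc (hMN hn)) g, mul_inv_cancel_right]⟩
  refine ⟨M, hn, hMN, Subgroup.subset_closure, ?_⟩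
  let _ : CommGroup M :=
    { (inferInstance : Group M) with
      mul_comm := fun x y => Subtype.ext (Subgroup.mem_center_iff.1 (hc (hMN y.2)) x) }
  have : Group.FG M := Group.closure_finset_fg S
  exact residuallyP_of_fg_torsionFree (A := M)
    (fun x n hn hx => Subtype.ext (htf x (hMN x.2) n hn
      (by simpa using congrArg Subtype.val hx))) p

end Vale.Agent.P194
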