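import Mathlib
import Vale.Agent.P194.Residual

/-!
# Matrices with injective augmentation over locally p-indicable groups
-/

namespace Vale.Agent.P194

open MonoidAlgebra

universe u v w

/-- Every nontrivial finitely generated subgroup of `N` has a nontrivial homomorphism to
`ℤ/p`. -/
def LocallyPIndicable (p : ℕ) {G : Type v} [Group G] (N : Subgroup G) : Prop :=
  ∀ H : Subgroup G, H ≤ N → H.FG → H ≠ ⊥ → ∃ χ : H →* Multiplicative (ZMod p), χ ≠ 1

section Parts

variable {K : Type u} [Field K] {G : Type v} [Group G] {Q : Type w}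

/-- The part of `x` on the fibre of `χ` over `k`. -/
noncomputable def part [DecidableEq Q] (χ : G → Q) (k : Q) (x : MonoidAlgebra K G) :
    MonoidAlgebra K G :=
  MonoidAlgebra.ofCoeff (x.coeff.filter fun g => χ g = k)

variable [DecidableEq Q] (χ : G → Q)

theorem coeff_part (k : Q) (x : MonoidAlgebra K G) (g : G) :
    (part χ k x).coeff g = if χ g = k then x.coeff g else 0 := by
  simp [part, Finsupp.filter_apply]

theorem part_add (k : Q) (x y : MonoidAlgebra K G) :
    part χ k (x + y) = part χ k x + part χ k y := by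
  ext g
  simp only [coeff_part, coeff_add, Finsupp.add_apply]
  split_ifs <;> simp

theorem part_zero (k : Q) : part χ k (0 : MonoidAlgebra K G) = 0 := by
  ext g
  simp [coeff_part]

theorem part_sum {α : Type*} (s : Finset α) (f : α → MonoidAlgebra K G) (k : Q) :
    part χ k (∑ a ∈ s, f a) = ∑ a ∈ s, part χ k (f a) := by
  classical
  induction s using Finset.induction with
  | empty => simp [part_zero]
  | insert a s ha ih => rw [Finset.sum_insert ha, Finset.sum_insert ha, part_add, ih]

theorem part_single (k : Q) (g : G) (r : K) :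
    part χ k (single g r) = if χ g = k then single g r else 0 := by
  classical
  ext h
  by_cases hg : g = h
  · subst hg; rw [coeff_part]; split_ifs <;> simp
  · rw [coeff_part]; split_ifs <;> simp [coeff_single, hg]

theorem sum_single_support (x : MonoidAlgebra K G) :
    ∑ g ∈ x.coeff.support, single g (x.coeff g) = x := by
  classical
  ext h
  simp [coeff_sum, Finsupp.single_apply, eq_comm]

variable [Group Q]

/-- Fibrewise product. -/
theorem part_mul (a b : MonoidAlgebra K G)
    (hχ : ∀ g ∈ a.coeff.support, ∀ h ∈ b.coeff.support, χ (g * h) = χ g * χ h)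
    (F : Finset Q) (hF : ∀ h ∈ b.coeff.support, χ h ∈ F) (l : Q) :
    part χ l (a * b) = ∑ k ∈ F, part χ (l * k⁻¹) a * part χ k b := by
  classical
  have hl : ∀ (h : G) (c : K), h ∈ b.coeff.support →
      ∑ k ∈ F, part χ (l * k⁻¹) a * part χ k (single h c) =
        part χ (l * (χ h)⁻¹) a * single h c := by
    intro h c hh
    rw [Finset.sum_eq_single (χ h)]
    · rw [part_single, if_pos rfl]
    · intro k _ hk
      rw [part_single, if_neg (Ne.symm hk), mul_zero]
    · exact fun hn => absurd (hF h hh) hn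
  conv_lhs => rw [← sum_single_support b]
  conv_rhs => rw [← sum_single_support b]
  simp only [Finset.mul_sum, part_sum]
  rw [Finset.sum_comm]
  refine Finset.sum_congr rfl fun h hh => ?_
  rw [hl h _ hh]
  conv_lhs => rw [← sum_single_support a]
  conv_rhs => rw [← sum_single_support a]
  simp only [Finset.sum_mul, part_sum]
  refine Finset.sum_congr rfl fun g hg => ?_
  rw [single_mul_single, part_single, part_single, hχ g hg h hh, ite_mul, single_mul_single,
    zero_mul]
  exact if_congr eq_mul_inv_iff_mul_eq.symm rfl rfl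

omit [Group Q] in
theorem eps_part (k : Q) (x : MonoidAlgebra K G) :
    eps K G (part χ k x) = (mapDomain χ x).coeff k := by
  conv_lhs => rw [← sum_single_support x]
  conv_rhs => rw [← sum_single_support x]
  rw [part_sum, map_sum]
  have hmd : ∀ (s : Finset G) (F : G → MonoidAlgebra K G),
      mapDomain χ (∑ g ∈ s, F g) = ∑ g ∈ s, mapDomain χ (F g) := by
    intro s F
    ext q
    simp [coeff_sum, Finsupp.mapDomain_finsetSum]
  rw [hmd, coeff_sum, Finset.sum_apply']
  refine Finset.sum_congr rfl fun g _ => ?_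
  rw [part_single, mapDomain_single, coeff_single, Finsupp.single_apply]
  split_ifs <;> simp [eps_single]

end Parts

section Translate

variable {K : Type u} [Field K] {G : Type v} [Group G]

/-- `u ↦ a u b`. -/
noncomputable def tr (a b : G) (x : MonoidAlgebra K G) : MonoidAlgebra K G :=
  single a 1 * x * single b 1

theorem eps_tr (a b : G) (x : MonoidAlgebra K G) : eps K G (tr a b x) = eps K G x := by
  simp [tr, eps_single]

theorem coeff_tr (a b : G) (x : MonoidAlgebra K G) (g : G) :
    (tr a b x).coeff g = x.coeff (a⁻¹ * g * b⁻¹) := by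
  simp [tr, mul_assoc]

theorem mem_support_tr (a b : G) (x : MonoidAlgebra K G) (g : G) :
    g ∈ (tr a b x).coeff.support ↔ a⁻¹ * g * b⁻¹ ∈ x.coeff.support := by
  simp [Finsupp.mem_support_iff, coeff_tr]

theorem card_tr (a b : G) (x : MonoidAlgebra K G) :
    (tr a b x).coeff.support.card = x.coeff.support.card := by
  refine Finset.card_bij' (fun g _ => a⁻¹ * g * b⁻¹) (fun g _ => a * g * b) ?_ ?_ ?_ ?_
  · intro g hg; exact (mem_support_tr a b x g).1 hg
  · intro g hg; rw [mem_support_tr]; simpa [mul_assoc] using hg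
  · intro g _; simp [mul_assoc]
  · intro g _; simp [mul_assoc]

theorem tr_eq_zero_iff (a b : G) (x : MonoidAlgebra K G) : tr a b x = 0 ↔ x = 0 := by
  refine ⟨fun h => ?_, fun h => by simp [tr, h]⟩
  ext g
  have := congrArg (fun y : MonoidAlgebra K G => y.coeff (a * g * b)) h
  simpa [coeff_tr, mul_assoc] using this

theorem tr_mul_tr (a b c : G) (x y : MonoidAlgebra K G) :
    tr a b x * tr b⁻¹ c y = tr a c (x * y) := by
  simp only [tr, mul_assoc]
  rw [← mul_assoc (single b 1) (single b⁻¹ 1), single_mul_single, mul_inv_cancel, one_mul,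
    ← one_def, one_mul]

theorem tr_sum {α : Type*} (a b : G) (s : Finset α) (f : α → MonoidAlgebra K G) :
    tr a b (∑ i ∈ s, f i) = ∑ i ∈ s, tr a b (f i) := by
  simp [tr, Finset.mul_sum, Finset.sum_mul]

end Translate

section Core

variable {K : Type u} [Field K] {G : Type v} [Group G] (p : ℕ) [Fact p.Prime] [CharP K p]

/-- In characteristic `p`, convolution over `ℤ/p` by a matrix with injective total sum is
injective. -/
theorem cyclic_injective {I J : Type} [Fintype J] (a : I → J → ZMod p → K)
    (ha : ∀ c : J → K, (∀ i, ∑ j, (∑ d, a i j d) * c j = 0) → c = 0)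
    (w : J → ZMod p → K) (hw : ∀ i l, ∑ j, ∑ k, a i j (l - k) * w j k = 0) : w = 0 := by
  classical
  let S : Module.End K (ZMod p → K) :=
    { toFun := fun f k => f (k - 1)
      map_add' := fun f g => rfl
      map_smul' := fun c f => rfl }
  have hSn : ∀ (n : ℕ) (f : ZMod p → K) (k : ZMod p), (S ^ n) f k = f (k - n) := by
    intro n
    induction n with
    | zero => simp
    | succ n ih =>
      intro f k
      rw [pow_succ, Module.End.mul_apply, ih]
      simp [S, sub_sub]
  have : Nontrivial (Module.End K (ZMod p → K)) := by infer_instance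
  have : CharP (Module.End K (ZMod p → K)) p :=
    charP_of_injective_algebraMap (algebraMap K (Module.End K (ZMod p → K))).injective p
  let D : Module.End K (ZMod p → K) := S - 1
  have hD : D ^ p = 0 := by
    have hS : S ^ p = 1 := by
      ext f k
      simp [hSn]
    rw [sub_pow_char_of_commute p (Commute.one_right S), hS, one_pow, sub_self]
  let Sol : (J → ZMod p → K) → Prop := fun u => ∀ i l, ∑ j, ∑ k, a i j (l - k) * u j k = 0
  have hDsol : ∀ u, Sol u → Sol fun j => D (u j) := by
    intro u hu i l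
    have h1 := hu i (l - 1)
    have h2 : ∑ j, ∑ k, a i j (l - k) * u j (k - 1) = 0 := by
      rw [← h1]
      refine Finset.sum_congr rfl fun j _ => ?_
      refine Fintype.sum_equiv (Equiv.subRight 1) _ _ fun k => ?_
      simp
    have h3 := hu i l
    simp only [D, S, LinearMap.sub_apply, Module.End.one_apply, LinearMap.coe_mk,
      AddHom.coe_mk, Pi.sub_apply, mul_sub, Finset.sum_sub_distrib, h2, h3, sub_zero]
  have hit : ∀ m u, Sol u → Sol fun j => (D ^ m) (u j) := by
    intro m
    induction m with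
    | zero => intro u hu; simpa using hu
    | succ m ih =>
      intro u hu
      have := hDsol _ (ih u hu)
      simpa [pow_succ'] using this
  by_contra hne
  have hex : ∃ m, ∀ j, (D ^ m) (w j) = 0 := ⟨p, fun j => by simp [hD]⟩
  obtain ⟨m, hm⟩ : ∃ m, Nat.find hex = m + 1 := by
    rcases Nat.eq_zero_or_pos (Nat.find hex) with h | h
    · exfalso
      apply hne
      funext j
      have := Nat.find_spec hex j
      rw [h] at this
      simpa using this
    · exact ⟨Nat.find hex - 1, by omega⟩
  have hnot : ¬ ∀ j, (D ^ m) (w j) = 0 := Nat.find_min hex (by omega)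
  apply hnot
  have hconst : ∀ j k, (D ^ m) (w j) k = (D ^ m) (w j) 0 := by
    intro j
    have h := Nat.find_spec hex j
    rw [hm, pow_succ', Module.End.mul_apply] at h
    set f := (D ^ m) (w j) with hf
    have hstep : ∀ k, f (k - 1) = f k := fun k => by
      have := congrFun h k
      simpa [D, S, sub_eq_zero] using this
    have hn : ∀ n : ℕ, f (n : ZMod p) = f 0 := by
      intro n
      induction n with
      | zero => simp
      | succ n ih =>
        rw [Nat.cast_succ, ← ih, ← hstep ((n : ZMod p) + 1), add_sub_cancel_right]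
    intro k
    simpa using hn k.val
  have hc : (fun j => (D ^ m) (w j) 0) = 0 := by
    refine ha _ fun i => ?_
    have := hit m w hw i 0
    simp only [hconst] at this
    rw [← this]
    refine Finset.sum_congr rfl fun j _ => ?_
    rw [Finset.sum_mul]
    refine Fintype.sum_equiv (Equiv.neg _) _ _ fun d => ?_
    simp
  intro j
  funext k
  rw [hconst j k]
  exact congrFun hc j

variable {p}

/-- Injectivity of the augmentation. -/
def EpsInjective {I J : Type*} [Fintype J] (A : I → J → MonoidAlgebra K G) : Prop :=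
  ∀ c : J → K, (∀ i, ∑ j, eps K G (A i j) * c j = 0) → c = 0

theorem closure_hom {N : Subgroup G} (hN : LocallyPIndicable p N) (S : Finset G)
    (hS : ∀ g ∈ S, g ∈ N) (hne : ∃ g ∈ S, g ≠ 1) :
    ∃ χ : G → Multiplicative (ZMod p),
      (∀ x ∈ Subgroup.closure (S : Set G), ∀ y ∈ Subgroup.closure (S : Set G),
        χ (x * y) = χ x * χ y) ∧ χ 1 = 1 ∧ ∃ g ∈ S, χ g ≠ 1 := by
  classical
  let H := Subgroup.closure (S : Set G)
  obtain ⟨g₀, hg₀, hg₁⟩ := hne
  have hH : H ≠ ⊥ := fun h => hg₁ <| by
    have : g₀ ∈ H := Subgroup.subset_closure hg₀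
    rwa [h, Subgroup.mem_bot] at this
  obtain ⟨χ, hχ⟩ := hN H ((Subgroup.closure_le N).2 hS) ⟨S, rfl⟩ hH
  refine ⟨fun g => if hg : g ∈ H then χ ⟨g, hg⟩ else 1, fun x hx y hy => ?_, ?_, ?_⟩
  · change x ∈ H at hx
    change y ∈ H at hy
    simp only [dif_pos hx, dif_pos hy, dif_pos (mul_mem hx hy)]
    exact map_mul χ ⟨x, hx⟩ ⟨y, hy⟩
  · simp only [dif_pos (one_mem H)]
    exact map_one χ
  · by_contra hcon
    push Not at hcon
    apply hχ
    refine MonoidHom.ext fun x => ?_
    obtain ⟨x, hx⟩ := x
    rw [MonoidHom.one_apply]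
    induction hx using Subgroup.closure_induction with
    | mem y hy =>
      have hy' : y ∈ H := Subgroup.subset_closure hy
      simpa [hy'] using hcon y hy
    | one => exact map_one χ
    | mul y z hy hz ihy ihz =>
      exact (map_mul χ ⟨y, hy⟩ ⟨z, hz⟩).trans (by rw [ihy, ihz, one_mul])
    | inv y hy ihy =>
      exact (map_inv χ ⟨y, hy⟩).trans (by rw [ihy, inv_one])

theorem sum_equivFin {α M : Type*} [AddCommMonoid M] (s : Finset α) (F : α → M) :
    ∑ q : Fin s.card, F (s.equivFin.symm q).1 = ∑ x ∈ s, F x := by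
  rw [Equiv.sum_comp s.equivFin.symm (fun q => F q.1), Finset.sum_coe_sort s F]

/-- The fibres of the columns. -/
noncomputable def colSet {n : ℕ} (χ : G → Multiplicative (ZMod p))
    (v : Fin n → MonoidAlgebra K G) : Finset (Fin n × Multiplicative (ZMod p)) := by
  classical
  exact Finset.univ.filter fun q => part χ q.2 (v q.1) ≠ 0

/-- The fibres of the rows meeting a column. -/
noncomputable def rowSet {m n : ℕ} (χ : G → Multiplicative (ZMod p))
    (A : Fin m → Fin n → MonoidAlgebra K G) (v : Fin n → MonoidAlgebra K G) :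
    Finset (Fin m × Multiplicative (ZMod p)) := by
  classical
  exact Finset.univ.filter fun r => ∃ q ∈ colSet χ v, part χ (r.2 * q.2⁻¹) (A r.1 q.1) ≠ 0

/-- The lifted matrix. -/
noncomputable def liftMat {m n : ℕ} (χ : G → Multiplicative (ZMod p))
    (A : Fin m → Fin n → MonoidAlgebra K G) (v : Fin n → MonoidAlgebra K G)
    (r : Fin (rowSet χ A v).card) (q : Fin (colSet χ v).card) : MonoidAlgebra K G :=
  part χ (((rowSet χ A v).equivFin.symm r).1.2 * ((colSet χ v).equivFin.symm q).1.2⁻¹)
    (A ((rowSet χ A v).equivFin.symm r).1.1 ((colSet χ v).equivFin.symm q).1.1)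

/-- The lifted vector. -/
noncomputable def liftVec {n : ℕ} (χ : G → Multiplicative (ZMod p))
    (v : Fin n → MonoidAlgebra K G) (q : Fin (colSet χ v).card) : MonoidAlgebra K G :=
  part χ ((colSet χ v).equivFin.symm q).1.2 (v ((colSet χ v).equivFin.symm q).1.1)

section Lift

variable {m n : ℕ} (χ : G → Multiplicative (ZMod p)) (A : Fin m → Fin n → MonoidAlgebra K G)
  (v : Fin n → MonoidAlgebra K G)

theorem mem_colSet (q : Fin n × Multiplicative (ZMod p)) :
    q ∈ colSet χ v ↔ part χ q.2 (v q.1) ≠ 0 := by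
  simp [colSet]

theorem mem_rowSet (r : Fin m × Multiplicative (ZMod p)) :
    r ∈ rowSet χ A v ↔ ∃ q ∈ colSet χ v, part χ (r.2 * q.2⁻¹) (A r.1 q.1) ≠ 0 := by
  simp [rowSet]

theorem sum_colSet {M : Type*} [AddCommMonoid M]
    (F : Fin n × Multiplicative (ZMod p) → M) (hF : ∀ q, part χ q.2 (v q.1) = 0 → F q = 0) :
    ∑ q : Fin (colSet χ v).card, F ((colSet χ v).equivFin.symm q).1 = ∑ j, ∑ k, F (j, k) := by
  rw [Equiv.sum_comp (colSet χ v).equivFin.symm (fun q => F q.1),
    Finset.sum_coe_sort (colSet χ v) F, ← Fintype.sum_prod_type]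
  exact Finset.sum_subset (Finset.subset_univ _) fun q _ hq =>
    hF q (by simpa [mem_colSet] using hq)

theorem lift_zero (hzero : ∀ i, ∑ j, A i j * v j = 0)
    (hχ : ∀ i j, ∀ g ∈ (A i j).coeff.support, ∀ h ∈ (v j).coeff.support,
      χ (g * h) = χ g * χ h) (r : Fin (rowSet χ A v).card) :
    ∑ q, liftMat χ A v r q * liftVec χ v q = 0 := by
  obtain ⟨x, hx⟩ : ∃ x, ((rowSet χ A v).equivFin.symm r).1 = x := ⟨_, rfl⟩
  simp only [liftMat, liftVec, hx]
  rw [sum_colSet χ v (fun q => part χ (x.2 * q.2⁻¹) (A x.1 q.1) * part χ q.2 (v q.1))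
    (fun q hq => by simp [hq])]
  have := congrArg (part χ x.2) (hzero x.1)
  rw [part_sum, part_zero] at this
  rw [← this]
  refine Finset.sum_congr rfl fun j _ => ?_
  exact (part_mul χ _ _ (hχ x.1 j) Finset.univ (fun h _ => Finset.mem_univ _) _).symm

omit [Fact p.Prime] [CharP K p] in
theorem eps_eq_sum_part [NeZero p] (x : MonoidAlgebra K G) :
    eps K G x = ∑ l : ZMod p, eps K G (part χ (Multiplicative.ofAdd l) x) := by
  conv_lhs => rw [← sum_single_support x]
  conv_rhs => rw [← sum_single_support x]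
  simp only [part_sum, map_sum]
  rw [Finset.sum_comm]
  refine Finset.sum_congr rfl fun g _ => ?_
  rw [Finset.sum_eq_single (Multiplicative.toAdd (χ g))]
  · simp [part_single]
  · intro l _ hl
    rw [part_single, if_neg, map_zero]
    intro h; exact hl (by simp [h])
  · simp

theorem lift_inj (hinj : EpsInjective A) : EpsInjective (liftMat χ A v) := by
  classical
  intro d hd
  obtain ⟨W, hWdef⟩ : ∃ W : Fin n → ZMod p → K, ∀ j k, W j k =
      if hq : (j, Multiplicative.ofAdd k) ∈ colSet χ v then
        d ((colSet χ v).equivFin ⟨_, hq⟩) else 0 := ⟨_, fun j k => rfl⟩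
  have hW := cyclic_injective p
    (fun i j l => eps K G (part χ (Multiplicative.ofAdd l) (A i j)))
    (fun b hb => hinj b fun i => by
      rw [← hb i]
      refine Finset.sum_congr rfl fun j _ => ?_
      rw [← eps_eq_sum_part]) W ?_
  · funext q
    have := congrFun (congrFun hW ((colSet χ v).equivFin.symm q).1.1)
      (Multiplicative.toAdd ((colSet χ v).equivFin.symm q).1.2)
    simpa [hWdef] using this
  intro i l
  by_cases hr : (i, Multiplicative.ofAdd l) ∈ rowSet χ A v
  · have h1 := hd ((rowSet χ A v).equivFin ⟨_, hr⟩)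
    rw [← h1]
    simp only [liftMat, Equiv.symm_apply_apply]
    rw [← Equiv.sum_comp (colSet χ v).equivFin (fun q => eps K G (part χ
      (Multiplicative.ofAdd l * (((colSet χ v).equivFin.symm q).1.2)⁻¹)
        (A i ((colSet χ v).equivFin.symm q).1.1)) * d q)]
    simp only [Equiv.symm_apply_apply]
    rw [← Fintype.sum_prod_type (f := fun q : Fin n × ZMod p =>
      eps K G (part χ (Multiplicative.ofAdd (l - q.2)) (A i q.1)) * W q.1 q.2),
      ← Equiv.sum_comp (Equiv.prodCongr (Equiv.refl (Fin n)) Multiplicative.toAdd),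
      ← Finset.sum_subset (Finset.subset_univ (colSet χ v))]
    · rw [← Finset.sum_coe_sort (colSet χ v)]
      refine Finset.sum_congr rfl fun q _ => ?_
      simp [hWdef, ofAdd_sub, div_eq_mul_inv]
    · intro q _ hq
      simp [hWdef, hq]
  · refine Finset.sum_eq_zero fun j _ => Finset.sum_eq_zero fun k _ => ?_
    by_cases hq : (j, Multiplicative.ofAdd k) ∈ colSet χ v
    · have : part χ (Multiplicative.ofAdd l * (Multiplicative.ofAdd k)⁻¹) (A i j) = 0 := by
        by_contra hne
        exact hr ((mem_rowSet χ A v _).2 ⟨_, hq, hne⟩)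
      simp [ofAdd_sub, div_eq_mul_inv, this]
    · simp [hWdef, hq]

theorem support_part_subset (k : Multiplicative (ZMod p)) (x : MonoidAlgebra K G) :
    (part χ k x).coeff.support ⊆ x.coeff.support := by
  intro g hg
  rw [Finsupp.mem_support_iff, coeff_part] at hg
  rw [Finsupp.mem_support_iff]
  intro h; simp [h] at hg

theorem part_ne_zero {x : MonoidAlgebra K G} {g : G} (hg : g ∈ x.coeff.support) :
    part χ (χ g) x ≠ 0 := by
  intro h
  have := congrArg (fun y : MonoidAlgebra K G => y.coeff g) h
  simp [coeff_part] at this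
  exact (Finsupp.mem_support_iff.1 hg) this

theorem sum_card_part (x : MonoidAlgebra K G) :
    ∑ k, (part χ k x).coeff.support.card = x.coeff.support.card := by
  classical
  rw [Finset.card_eq_sum_card_fiberwise (f := χ) (t := Finset.univ)
    (fun _ _ => Finset.mem_univ _)]
  refine Finset.sum_congr rfl fun k _ => congrArg Finset.card ?_
  ext g
  simp [coeff_part, and_comm]

theorem card_pos_of_ne_zero {x : MonoidAlgebra K G} (h : x ≠ 0) : 1 ≤ x.coeff.support.card :=
  Finset.card_pos.2 (Finsupp.support_nonempty_iff.2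
    fun h0 => h (coeff_injective (by simpa using h0)))

theorem sum_card_liftVec :
    ∑ q, (liftVec χ v q).coeff.support.card = ∑ j, (v j).coeff.support.card := by
  simp only [liftVec]
  rw [sum_colSet χ v (fun q => (part χ q.2 (v q.1)).coeff.support.card)
    (fun q hq => by simp [hq])]
  exact Finset.sum_congr rfl fun j _ => sum_card_part χ (v j)

theorem sum_card_liftMat (hR : colSet χ v = Finset.univ ×ˢ {1}) :
    ∑ r, ∑ q, (liftMat χ A v r q).coeff.support.card =
      ∑ i, ∑ j, (A i j).coeff.support.card := by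
  classical
  let c : Fin m × Multiplicative (ZMod p) → Fin n × Multiplicative (ZMod p) → ℕ :=
    fun x q => (part χ (x.2 * q.2⁻¹) (A x.1 q.1)).coeff.support.card
  have h0 : ∑ r, ∑ q, (liftMat χ A v r q).coeff.support.card =
      ∑ x ∈ rowSet χ A v, ∑ q ∈ colSet χ v, c x q := by
    rw [← sum_equivFin (rowSet χ A v)]
    exact Finset.sum_congr rfl fun r _ => sum_equivFin (colSet χ v) (c _)
  have h1 : ∀ x, ∑ q ∈ colSet χ v, c x q = ∑ j, (part χ x.2 (A x.1 j)).coeff.support.card := by
    intro x
    rw [hR, Finset.sum_product]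
    simp [c]
  rw [h0, Finset.sum_congr rfl fun x _ => h1 x,
    Finset.sum_subset (Finset.subset_univ _), Fintype.sum_prod_type]
  · refine Finset.sum_congr rfl fun i _ => ?_
    dsimp only
    rw [Finset.sum_comm]
    refine Finset.sum_congr rfl fun j _ => ?_
    rw [← sum_card_part χ (A i j)]
  intro x _ hx
  refine Finset.sum_eq_zero fun j _ => ?_
  by_contra hne
  refine hx ((mem_rowSet χ A v _).2 ⟨(j, 1), by simp [hR], ?_⟩)
  intro h
  simp at h
  simp [h] at hne

theorem liftMat_ne_zero (r : Fin (rowSet χ A v).card) : ∃ q, liftMat χ A v r q ≠ 0 := by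
  obtain ⟨q, hq, hne⟩ := (mem_rowSet χ A v _).1 ((rowSet χ A v).equivFin.symm r).2
  exact ⟨(colSet χ v).equivFin ⟨q, hq⟩, by simpa [liftMat] using hne⟩

theorem liftVec_ne_zero (q : Fin (colSet χ v).card) : liftVec χ v q ≠ 0 :=
  (mem_colSet χ v _).1 ((colSet χ v).equivFin.symm q).2

end Lift

/-- The main induction. -/
theorem core {N : Subgroup G} (hN : LocallyPIndicable p N) :
    ∀ (e f : ℕ) (m n : ℕ) (A : Fin m → Fin n → MonoidAlgebra K G)
      (v : Fin n → MonoidAlgebra K G),
      (∀ i j, ∀ g ∈ (A i j).coeff.support, g ∈ N) →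
      (∀ j, ∀ g ∈ (v j).coeff.support, g ∈ N) →
      EpsInjective A → (∀ i, ∑ j, A i j * v j = 0) → (∀ j, v j ≠ 0) → (∀ i, ∃ j, A i j ≠ 0) →
      (∑ j, (v j).coeff.support.card) - n ≤ e →
      (∑ i, ∑ j, (A i j).coeff.support.card) - m ≤ f → n = 0 := by
  classical
  intro e
  induction e using Nat.strong_induction_on with
  | _ e ihe =>
  intro f
  induction f using Nat.strong_induction_on with
  | _ f ihf =>
  intro m n A v hAN hvN hinj hzero hv hrow hev hfA
  by_contra hn
  have hvs : ∀ j, ∃ u, u ∈ (v j).coeff.support := fun j =>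
    Finsupp.support_nonempty_iff.2 fun h => hv j (coeff_injective (by simpa using h))
  choose u hu using hvs
  have hAs : ∀ i, ∃ w j, w ∈ (tr (1 : G) (u j) (A i j)).coeff.support := fun i => by
    obtain ⟨j, hj⟩ := hrow i
    obtain ⟨w, hw⟩ := Finsupp.support_nonempty_iff.2 fun h : (tr (1 : G) (u j) (A i j)).coeff = 0 =>
      hj ((tr_eq_zero_iff _ _ _).1 (coeff_injective (by simpa using h)))
    exact ⟨w, j, hw⟩
  choose w c hw using hAs
  let v' : Fin n → MonoidAlgebra K G := fun j => tr (u j)⁻¹ 1 (v j)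
  let A' : Fin m → Fin n → MonoidAlgebra K G := fun i j => tr (w i)⁻¹ (u j) (A i j)
  have hzero' : ∀ i, ∑ j, A' i j * v' j = 0 := fun i => by
    simp only [A', v', tr_mul_tr, ← tr_sum, hzero i, (tr_eq_zero_iff _ _ _).2]
  have huN : ∀ j, u j ∈ N := fun j => hvN j _ (hu j)
  have hwN : ∀ i, w i ∈ N := fun i => by
    have h1 := (mem_support_tr _ _ _ _).1 (hw i)
    have h2 := hAN i (c i) _ h1
    have := mul_mem h2 (huN (c i))
    simpa [mul_assoc] using this
  have hv'N : ∀ j, ∀ g ∈ (v' j).coeff.support, g ∈ N := fun j g hg => by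
    have h1 := hvN j _ ((mem_support_tr _ _ _ _).1 hg)
    have := mul_mem (inv_mem (huN j)) h1
    simpa [mul_assoc] using this
  have hA'N : ∀ i j, ∀ g ∈ (A' i j).coeff.support, g ∈ N := fun i j g hg => by
    have h1 := hAN i j _ ((mem_support_tr _ _ _ _).1 hg)
    have := mul_mem (mul_mem (inv_mem (hwN i)) h1) (huN j)
    simpa [mul_assoc] using this
  have hinj' : EpsInjective A' := fun d hd => hinj d fun i => by
    simpa [A', eps_tr] using hd i
  let S : Finset G := (Finset.univ.biUnion fun j => (v' j).coeff.support) ∪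
    Finset.univ.biUnion fun i => Finset.univ.biUnion fun j => (A' i j).coeff.support
  have hSv : ∀ j, ∀ g ∈ (v' j).coeff.support, g ∈ S := fun j g hg =>
    Finset.mem_union_left _ (Finset.mem_biUnion.2 ⟨j, Finset.mem_univ _, hg⟩)
  have hSA : ∀ i j, ∀ g ∈ (A' i j).coeff.support, g ∈ S := fun i j g hg =>
    Finset.mem_union_right _ (Finset.mem_biUnion.2 ⟨i, Finset.mem_univ _,
      Finset.mem_biUnion.2 ⟨j, Finset.mem_univ _, hg⟩⟩)
  have hSN : ∀ g ∈ S, g ∈ N := by
    intro g hg
    rcases Finset.mem_union.1 hg with h | h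
    · obtain ⟨j, -, h⟩ := Finset.mem_biUnion.1 h
      exact hv'N j g h
    · obtain ⟨i, -, h⟩ := Finset.mem_biUnion.1 h
      obtain ⟨j, -, h⟩ := Finset.mem_biUnion.1 h
      exact hA'N i j g h
  have hv'1 : ∀ j, (1 : G) ∈ (v' j).coeff.support := fun j => by
    rw [mem_support_tr]; simpa using hu j
  by_cases htriv : ∀ g ∈ S, g = 1
  · -- everything is scalar
    have hsc : ∀ x : MonoidAlgebra K G, (∀ g ∈ x.coeff.support, g = 1) →
        x = single 1 (eps K G x) := by
      intro x hx
      have : x = single 1 (x.coeff 1) := by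
        ext g
        by_cases hg : g = 1
        · subst hg; simp
        · rw [coeff_single, Finsupp.single_apply, if_neg (Ne.symm hg)]
          by_contra h
          exact hg (hx g (Finsupp.mem_support_iff.2 h))
      conv_rhs => rw [this, eps_single]
      exact this
    have h0 : (fun j => eps K G (v' j)) = 0 := hinj' _ fun i => by
      have := congrArg (eps K G) (hzero' i)
      simpa using this
    have hj := hsc (v' ⟨0, Nat.pos_of_ne_zero hn⟩) fun g hg => htriv g (hSv _ g hg)
    have := hv'1 ⟨0, Nat.pos_of_ne_zero hn⟩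
    rw [hj, show eps K G (v' ⟨0, Nat.pos_of_ne_zero hn⟩) = 0 from congrFun h0 _] at this
    simp at this
  push Not at htriv
  obtain ⟨χ, hχ, hχ1, g₀, hg₀, hχg⟩ := closure_hom hN S hSN htriv

  have hχS : ∀ i j, ∀ g ∈ (A' i j).coeff.support, ∀ h ∈ (v' j).coeff.support,
      χ (g * h) = χ g * χ h := fun i j g hg h hh =>
    hχ g (Subgroup.subset_closure (hSA _ _ g hg)) h (Subgroup.subset_closure (hSv _ h hh))
  have hBN : ∀ r q, ∀ g ∈ (liftMat χ A' v' r q).coeff.support, g ∈ N := fun r q g hg =>
    hA'N _ _ g (support_part_subset χ _ _ hg)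
  have hzN : ∀ q, ∀ g ∈ (liftVec χ v' q).coeff.support, g ∈ N := fun q g hg =>
    hv'N _ g (support_part_subset χ _ _ hg)
  have hinjB := lift_inj χ A' v' hinj'
  have hzeroB := lift_zero χ A' v' hzero' hχS
  have hz := liftVec_ne_zero χ v'
  have hrowB := liftMat_ne_zero χ A' v'
  have hzc : ∑ q, (liftVec χ v' q).coeff.support.card = ∑ j, (v j).coeff.support.card :=
    (sum_card_liftVec χ v').trans (Finset.sum_congr rfl fun j _ => card_tr _ _ _)
  have hsubR : (Finset.univ ×ˢ {1}) ⊆ colSet χ v' := by
    rintro ⟨j, k⟩ hq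
    simp at hq
    subst hq
    rw [mem_colSet, ← hχ1]
    exact part_ne_zero χ (hv'1 j)
  have hRn : n ≤ (colSet χ v').card := by simpa using Finset.card_le_card hsubR
  have hRne : (colSet χ v').card ≠ 0 := by omega
  have hnv : (colSet χ v').card ≤ ∑ j, (v j).coeff.support.card := by
    rw [← hzc]
    calc (colSet χ v').card = ∑ _q : Fin (colSet χ v').card, 1 := by simp
      _ ≤ _ := Finset.sum_le_sum fun q _ => card_pos_of_ne_zero (hz q)
  rcases lt_or_eq_of_le hRn with hlt | heq
  · exact hRne (ihe ((∑ j, (v j).coeff.support.card) - (colSet χ v').card) (by omega) _ _ _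
      _ _ hBN hzN hinjB hzeroB hz hrowB (le_of_eq (by rw [hzc])) le_rfl)
  have hRsing : colSet χ v' = Finset.univ ×ˢ {1} :=
    (Finset.eq_of_subset_of_card_le hsubR (by simp [← heq])).symm
  have hBc : ∑ r, ∑ q, (liftMat χ A' v' r q).coeff.support.card =
      ∑ i, ∑ j, (A i j).coeff.support.card :=
    (sum_card_liftMat χ A' v' hRsing).trans
      (Finset.sum_congr rfl fun i _ => Finset.sum_congr rfl fun j _ => card_tr _ _ _)
  have hw1 : ∀ i, (1 : G) ∈ (A' i (c i)).coeff.support := fun i => by
    have h1 := (mem_support_tr _ _ _ _).1 (hw i)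
    rw [mem_support_tr]
    simpa [mul_assoc] using h1
  have hsubT : (Finset.univ ×ˢ {1}) ⊆ rowSet χ A' v' := by
    rintro ⟨i, k⟩ hq
    simp at hq
    subst hq
    refine (mem_rowSet χ A' v' _).2 ⟨(c i, 1), hsubR (by simp), ?_⟩
    have := part_ne_zero χ (hw1 i)
    rw [hχ1] at this
    simpa using this
  have hTm : m ≤ (rowSet χ A' v').card := by simpa using Finset.card_le_card hsubT
  have hTA : (rowSet χ A' v').card ≤ ∑ i, ∑ j, (A i j).coeff.support.card := by
    rw [← hBc]
    calc (rowSet χ A' v').card = ∑ _r : Fin (rowSet χ A' v').card, 1 := by simp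
      _ ≤ _ := Finset.sum_le_sum fun r _ => by
        obtain ⟨q, hq⟩ := hrowB r
        exact le_trans (card_pos_of_ne_zero hq) (Finset.single_le_sum
          (f := fun q => (liftMat χ A' v' r q).coeff.support.card)
          (fun _ _ => Nat.zero_le _) (Finset.mem_univ q))
  rcases lt_or_eq_of_le hTm with hlt | heqT
  · exact hRne (ihf ((∑ i, ∑ j, (A i j).coeff.support.card) - (rowSet χ A' v').card) (by omega)
      _ _ _ _ hBN hzN hinjB hzeroB hz hrowB (by rw [hzc]; omega) (le_of_eq (by rw [hBc])))
  have hTsing : rowSet χ A' v' = Finset.univ ×ˢ {1} :=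
    (Finset.eq_of_subset_of_card_le hsubT (by simp [← heqT])).symm
  refine hχg ?_
  rcases Finset.mem_union.1 hg₀ with h | h
  · obtain ⟨j, -, h⟩ := Finset.mem_biUnion.1 h
    have : (j, χ g₀) ∈ colSet χ v' := (mem_colSet χ v' _).2 (part_ne_zero χ h)
    rw [hRsing] at this
    simpa [eq_comm] using this
  · obtain ⟨i, -, h⟩ := Finset.mem_biUnion.1 h
    obtain ⟨j, -, h⟩ := Finset.mem_biUnion.1 h
    have : (i, χ g₀) ∈ rowSet χ A' v' :=
      (mem_rowSet χ A' v' _).2 ⟨(j, 1), hsubR (by simp), by simpa using part_ne_zero χ h⟩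
    rw [hTsing] at this
    simpa [eq_comm] using this

/-- A matrix with entries in `K[N]` and injective augmentation is injective. -/
theorem eq_zero_of_epsInjective {N : Subgroup G} (hN : LocallyPIndicable p N)
    {I J : Type*} [Fintype I] [Fintype J] (A : I → J → MonoidAlgebra K G)
    (v : J → MonoidAlgebra K G) (hAN : ∀ i j, ∀ g ∈ (A i j).coeff.support, g ∈ N)
    (hvN : ∀ j, ∀ g ∈ (v j).coeff.support, g ∈ N) (hinj : EpsInjective A)
    (hzero : ∀ i, ∑ j, A i j * v j = 0) : v = 0 := by
  classical
  let R : Finset J := Finset.univ.filter fun j => v j ≠ 0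
  let T : Finset I := Finset.univ.filter fun i => ∃ j ∈ R, A i j ≠ 0
  have hR : R.card = 0 := by
    refine core (K := K) hN _ _ T.card R.card
      (fun r q => A (T.equivFin.symm r) (R.equivFin.symm q))
      (fun q => v (R.equivFin.symm q)) (fun r q => hAN _ _) (fun q => hvN _) ?_ ?_ ?_ ?_
      le_rfl le_rfl
    · intro d hd
      have := hinj (fun j => if hj : j ∈ R then d (R.equivFin ⟨j, hj⟩) else 0) fun i => ?_
      · funext q
        simpa using congrFun this (R.equivFin.symm q).1
      rw [← Finset.sum_subset (Finset.subset_univ R) (fun j _ hj => by simp [hj]),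
        ← Finset.sum_coe_sort R, ← Equiv.sum_comp R.equivFin.symm]
      by_cases hi : i ∈ T
      · have h1 := hd (T.equivFin ⟨i, hi⟩)
        simpa using h1
      · refine Finset.sum_eq_zero fun q _ => ?_
        have : A i (R.equivFin.symm q).1 = 0 := by
          by_contra hne
          exact hi (Finset.mem_filter.2 ⟨Finset.mem_univ _, _, (R.equivFin.symm q).2, hne⟩)
        simp [this]
    · intro r
      rw [Equiv.sum_comp R.equivFin.symm (fun q => A _ q.1 * v q.1),
        Finset.sum_coe_sort R (fun q => A _ q * v q),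
        Finset.sum_subset (Finset.subset_univ R) (fun j _ hj => by
          simp [R] at hj; simp [hj])]
      exact hzero _
    · exact fun q => (Finset.mem_filter.1 (R.equivFin.symm q).2).2
    · intro r
      obtain ⟨-, j, hj, hne⟩ := Finset.mem_filter.1 (T.equivFin.symm r).2
      exact ⟨R.equivFin ⟨j, hj⟩, by simpa using hne⟩
  funext j
  by_contra hne
  have : j ∈ R := Finset.mem_filter.2 ⟨Finset.mem_univ _, hne⟩
  rw [Finset.card_eq_zero.1 hR] at this
  simp at this

/-- **Extension theorem**: locally `p`-indicable kernels preserve stable finiteness. -/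
theorem isStablyFiniteRing_of_locallyPIndicable (p : ℕ) [Fact p.Prime] [CharP K p]
    (N : Subgroup G) [N.Normal] (hN : LocallyPIndicable p N)
    [IsStablyFiniteRing (MonoidAlgebra K (G ⧸ N))] :
    IsStablyFiniteRing (MonoidAlgebra K G) := by
  classical
  refine ⟨fun n => ⟨fun {a b} hab => ?_⟩⟩
  let π : G → G ⧸ N := QuotientGroup.mk' N
  let f := (mapDomainRingHom K (QuotientGroup.mk' N)).mapMatrix (m := Fin n)
  have hf : f b * f a = 1 := mul_eq_one_symm (by rw [← map_mul, hab, map_one])
  have hac : a * (b * a - 1) = 0 := by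
    rw [mul_sub, ← mul_assoc, hab, one_mul, mul_one, sub_self]
  rw [← sub_eq_zero]
  refine Matrix.ext fun i₀ col => ?_
  let x : Fin n → MonoidAlgebra K G := fun j => (b * a - 1) j col
  have hx : ∀ i, ∑ j, a i j * x j = 0 := fun i => by
    have := congrFun (congrFun hac i) col
    simpa [Matrix.mul_apply, x] using this
  change x i₀ = 0
  let s : G ⧸ N → G := Quotient.out
  have hs : ∀ q, π (s q) = q := fun q => QuotientGroup.out_eq' q
  let F : Finset (G ⧸ N) := Finset.univ.biUnion fun j => (x j).coeff.support.image π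
  let E : Finset (G ⧸ N) := Finset.univ.biUnion fun i => Finset.univ.biUnion fun j =>
    ((a i j).coeff.support ×ˢ F).image fun y => π y.1 * y.2
  let A : Fin n × E → Fin n × F → MonoidAlgebra K G := fun r q =>
    tr (s r.2.1)⁻¹ (s q.2.1) (part π (r.2.1 * q.2.1⁻¹) (a r.1 q.1))
  let v : Fin n × F → MonoidAlgebra K G := fun q =>
    tr (s q.2.1)⁻¹ 1 (part π q.2.1 (x q.1))
  have hmemN : ∀ (g : G), π g = 1 → g ∈ N := fun g hg => (QuotientGroup.eq_one_iff g).1 hg
  have hπpart : ∀ (k : G ⧸ N) (y : MonoidAlgebra K G) (g : G),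
      g ∈ (part π k y).coeff.support → π g = k := by
    intro k y g hg
    rw [Finsupp.mem_support_iff, coeff_part] at hg
    by_contra h
    simp [h] at hg
  have hπmul : ∀ g h : G, π (g * h) = π g * π h := fun g h => map_mul (QuotientGroup.mk' N) g h
  have hπinv : ∀ g : G, π g⁻¹ = (π g)⁻¹ := fun g => map_inv (QuotientGroup.mk' N) g
  have hAN : ∀ r q, ∀ g ∈ (A r q).coeff.support, g ∈ N := fun r q g hg => by
    have h1 := hπpart _ _ _ ((mem_support_tr _ _ _ _).1 hg)
    simp only [hπmul, hπinv, hs, inv_inv] at h1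
    refine hmemN g ?_
    have h2 := congrArg (fun y => (r.2 : G ⧸ N)⁻¹ * y * (q.2 : G ⧸ N)) h1
    simpa [mul_assoc] using h2
  have hvN : ∀ q, ∀ g ∈ (v q).coeff.support, g ∈ N := fun q g hg => by
    have h1 := hπpart _ _ _ ((mem_support_tr _ _ _ _).1 hg)
    simp only [hπmul, hπinv, hs, inv_inv, inv_one, mul_one] at h1
    refine hmemN g ?_
    simpa using h1
  have hzero : ∀ r, ∑ q, A r q * v q = 0 := fun r => by
    have key : ∀ q : Fin n × F, A r q * v q =
        tr (s r.2.1)⁻¹ 1 (part π (r.2.1 * q.2.1⁻¹) (a r.1 q.1) * part π q.2.1 (x q.1)) :=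
      fun q => tr_mul_tr _ _ _ _ _
    simp only [key, ← tr_sum]
    rw [tr_eq_zero_iff, Fintype.sum_prod_type]
    have := congrArg (part π r.2.1) (hx r.1)
    rw [part_sum, part_zero] at this
    rw [← this]
    refine Finset.sum_congr rfl fun j _ => ?_
    rw [part_mul π _ _ (fun g _ h _ => hπmul g h) F (fun h hh =>
      Finset.mem_biUnion.2 ⟨j, Finset.mem_univ _, Finset.mem_image_of_mem _ hh⟩)]
    exact Finset.sum_coe_sort F
      (fun k => part π (r.2.1 * k⁻¹) (a r.1 j) * part π k (x j))
  have hinj : EpsInjective A := by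
    intro d hd
    let W : Fin n → MonoidAlgebra K (G ⧸ N) := fun j => ∑ k : F, single k.1 (d (j, k))
    have hW : ∀ i, ∑ j, f a i j * W j = 0 := by
      intro i
      ext h
      have hcoef : (∑ j, f a i j * W j).coeff h =
          ∑ q : Fin n × F, eps K G (part π (h * q.2.1⁻¹) (a i q.1)) * d q := by
        rw [coeff_sum, Finset.sum_apply', Fintype.sum_prod_type]
        refine Finset.sum_congr rfl fun j _ => ?_
        simp only [W, Finset.mul_sum, coeff_sum, Finset.sum_apply']
        refine Finset.sum_congr rfl fun k _ => ?_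
        rw [coeff_mul_single_apply, eps_part]
        rfl
      rw [hcoef, coeff_zero, Finsupp.zero_apply]
      by_cases hh : h ∈ E
      · simpa [A, eps_tr] using hd (i, ⟨h, hh⟩)
      · refine Finset.sum_eq_zero fun q _ => ?_
        have : part π (h * q.2.1⁻¹) (a i q.1) = 0 := by
          ext g
          rw [coeff_part, coeff_zero, Finsupp.zero_apply]
          split_ifs with hg
          · by_contra hne
            refine hh (Finset.mem_biUnion.2 ⟨i, Finset.mem_univ _, Finset.mem_biUnion.2
              ⟨q.1, Finset.mem_univ _, Finset.mem_image.2 ⟨(g, q.2.1),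
                Finset.mem_product.2 ⟨Finsupp.mem_support_iff.2 hne, q.2.2⟩, ?_⟩⟩⟩)
            simp [hg]
          · rfl
        simp [this]
    have hW0 : W = 0 := by
      have h1 : (f a).mulVec W = 0 := funext fun i => by simpa [Matrix.mulVec, dotProduct] using hW i
      have h2 := congrArg (f b).mulVec h1
      rwa [Matrix.mulVec_mulVec, hf, Matrix.one_mulVec, Matrix.mulVec_zero] at h2
    funext ⟨j, k⟩
    have := congrArg (fun y : MonoidAlgebra K (G ⧸ N) => y.coeff k.1) (congrFun hW0 j)
    simpa [W, coeff_sum, Finsupp.single_apply, Subtype.val_inj] using this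
  have hv0 := eq_zero_of_epsInjective hN A v hAN hvN hinj hzero
  ext g
  rw [coeff_zero, Finsupp.zero_apply]
  by_contra hne
  have hmem : π g ∈ F := Finset.mem_biUnion.2
    ⟨i₀, Finset.mem_univ _, Finset.mem_image_of_mem _ (Finsupp.mem_support_iff.2 hne)⟩
  have h3 := congrFun hv0 (i₀, ⟨π g, hmem⟩)
  simp only [v, Pi.zero_apply, tr_eq_zero_iff] at h3
  have h4 := congrArg (fun y : MonoidAlgebra K G => y.coeff g) h3
  simp [coeff_part] at h4
  exact hne h4

end Core

end Vale.Agent.P194
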