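import Mathlib
import Vale.Agent.P194.Indicable
import Vale.Agent.P194.Closure

/-!
# Classes of locally p-indicable groups
-/

namespace Vale.Agent.P194

universe u v

/-- Every nontrivial finitely generated subgroup of `N` maps onto `ℤ`. -/
def LocallyIndicableSub {G : Type v} [Group G] (N : Subgroup G) : Prop :=
  ∀ H : Subgroup G, H ≤ N → H.FG → H ≠ ⊥ →
    ∃ χ : H →* Multiplicative ℤ, Function.Surjective χ

theorem locallyPIndicable_of_locallyIndicable {G : Type v} [Group G] {N : Subgroup G}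
    (h : LocallyIndicableSub N) (p : ℕ) [hp : Fact p.Prime] : LocallyPIndicable p N := by
  intro H hH hfg hne
  obtain ⟨χ, hχ⟩ := h H hH hfg hne
  let π : Multiplicative ℤ →* Multiplicative (ZMod p) :=
    AddMonoidHom.toMultiplicative (Int.castAddHom (ZMod p))
  refine ⟨π.comp χ, fun h1 => ?_⟩
  obtain ⟨x, hx⟩ := hχ (Multiplicative.ofAdd 1)
  have h2 := DFunLike.congr_fun h1 x
  rw [MonoidHom.comp_apply, hx, MonoidHom.one_apply] at h2
  have h3 : ((1 : ℤ) : ZMod p) = 0 := by simpa [π] using h2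
  simp at h3

/-- A nontrivial finite `p`-group maps nontrivially to `ℤ/p`. -/
theorem exists_hom_zmod {P : Type v} [Group P] [Finite P] [Nontrivial P] (p : ℕ)
    [hp : Fact p.Prime] (hP : IsPGroup p P) : ∃ χ : P →* Multiplicative (ZMod p), χ ≠ 1 := by
  obtain ⟨k, hk⟩ := IsPGroup.iff_card.1 hP
  have hk0 : k ≠ 0 := by
    rintro rfl
    have := Finite.one_lt_card (α := P)
    simp [hk] at this
  obtain ⟨M, hM⟩ := Sylow.exists_subgroup_card_pow_prime (G := P) p (n := k - 1)
    (by rw [hk]; exact pow_dvd_pow p (Nat.sub_le k 1))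
  have hidx : M.index = p := by
    have h := M.card_mul_index
    rw [hM, hk] at h
    have e : p ^ (k - 1) * p = p ^ k := by rw [← pow_succ]; congr 1; omega
    exact Nat.eq_of_mul_eq_mul_left (pow_pos hp.out.pos _) (h.trans e.symm)
  have : M.Normal := Subgroup.normal_of_index_eq_minFac_card (by
    rw [hidx, hk, Nat.Prime.pow_minFac hp.out hk0])
  have hc : Nat.card (P ⧸ M) = p := by rw [← Subgroup.index_eq_card, hidx]
  have : IsCyclic (P ⧸ M) := isCyclic_of_prime_card hc
  let e : P ⧸ M ≃* Multiplicative (ZMod p) := (zmodCyclicMulEquiv ‹_›).symm.trans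
    (AddEquiv.toMultiplicative (ZMod.ringEquivCongr hc).toAddEquiv)
  refine ⟨e.toMonoidHom.comp (QuotientGroup.mk' M), fun h => ?_⟩
  have htop : M = ⊤ := by
    rw [eq_top_iff]
    intro x _
    have h1 := DFunLike.congr_fun h x
    rw [MonoidHom.comp_apply, MonoidHom.one_apply] at h1
    exact (QuotientGroup.eq_one_iff x).1 (e.injective (by rw [map_one]; exact h1))
  rw [htop, Subgroup.index_top] at hidx
  exact hp.out.one_lt.ne hidx

theorem locallyPIndicable_of_locallyResiduallyP {G : Type v} [Group G] {N : Subgroup G}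
    {p : ℕ} [hp : Fact p.Prime] (h : LocallyResiduallyP p N) : LocallyPIndicable p N := by
  intro H hH hfg hne
  obtain ⟨S, hS⟩ := hfg
  obtain ⟨M, -, -, hSM, hMp⟩ := h S fun g hg => hH (hS ▸ Subgroup.subset_closure hg)
  have hHM : H ≤ M := hS ▸ (Subgroup.closure_le M).2 hSM
  obtain ⟨x, hx, hx1⟩ : ∃ x ∈ H, x ≠ 1 := by
    by_contra hcon
    push Not at hcon
    exact hne ((Subgroup.eq_bot_iff_forall H).2 hcon)
  obtain ⟨L, hn, ⟨k, hk⟩, hxL⟩ := hMp ⟨x, hHM hx⟩ fun h1 => hx1 (congrArg Subtype.val h1)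
  have := hn
  have hcard : Nat.card (M ⧸ L) = p ^ k := by rw [← Subgroup.index_eq_card, hk]
  have : Finite (M ⧸ L) := Nat.finite_of_card_ne_zero (by rw [hcard]; exact pow_ne_zero _ hp.out.ne_zero)
  let f : H →* M ⧸ L := (QuotientGroup.mk' L).comp (Subgroup.inclusion hHM)
  have hfx : f ⟨x, hx⟩ ≠ 1 := fun h1 => hxL ((QuotientGroup.eq_one_iff _).1 h1)
  have : Nontrivial f.range :=
    ⟨⟨⟨f ⟨x, hx⟩, ⟨x, hx⟩, rfl⟩, 1, fun h1 => hfx (congrArg Subtype.val h1)⟩⟩
  obtain ⟨χ, hχ⟩ := exists_hom_zmod p ((IsPGroup.of_card hcard).to_subgroup f.range)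
  refine ⟨χ.comp f.rangeRestrict, fun h1 => hχ ?_⟩
  refine MonoidHom.ext fun y => ?_
  obtain ⟨z, rfl⟩ := f.rangeRestrict_surjective y
  exact DFunLike.congr_fun h1 z

/-- Kernels that are locally `p`-indicable for all `p`. -/
theorem isStablyFiniteRing_of_locallyPIndicable_all {G : Type v} [Group G] (N : Subgroup G)
    [N.Normal] (hN : ∀ p : ℕ, p.Prime → LocallyPIndicable p N)
    (hQ : ∀ (F : Type u) [Field F], IsStablyFiniteRing (MonoidAlgebra F (G ⧸ N)))
    (K : Type u) [Field K] : IsStablyFiniteRing (MonoidAlgebra K G) := by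
  refine isStablyFiniteRing_of_prime_char (fun p hp F _ _ => ?_) K
  have : Fact p.Prime := ⟨hp⟩
  have := hQ F
  exact isStablyFiniteRing_of_locallyPIndicable p N (hN p hp)

end Vale.Agent.P194
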